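import Crest.Agent.R169.C.Slope

/-!
Row 169, Part C (helper461), C6: assembly of the upper bound `J(W) ≤ n/2 · s²` from (H), C4, C5
and P5.  The inputs C4, C5 (helper576), P1 (helper132), P5 (helper649) are hypotheses here; they are
discharged in `C/Main.lean`.
-/

set_option autoImplicit false
set_option linter.unusedSectionVars false

namespace Crest.Agent.R169.PC

variable {k Q : Type} [Field k] [Field Q] [Algebra k Q]

/-- The hypotheses on a `T`-lattice `W` under which C4 and C5 hold: stable under derivations up to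
the shift `c₀`, and (H) for derivation-stable `Q`-subspaces. -/
structure CHyp {D : TData k Q} {p c0 c1 : ℕ} (X : DerData D p c0 c1) {R : ℕ}
    (W : ℤ → Submodule k (Fin R → Q)) (n : ℕ) (b : ℚ) : Prop where
  tlat : IsTLat D W
  hp : ∃ c : ℚ, HasHP W n b c
  der : ∀ j m, ∀ w ∈ W m, (fun i => X.d j (w i)) ∈ W (m + c0)
  slope : ∀ U : Submodule Q (Fin R → Q), DStable X U → ∀ (n₁ : ℕ) (b₁ c₁ : ℚ),
    HasHP (interU W U) n₁ b₁ c₁ → b₁ * n - n₁ * b ≤ (p / 2 : ℚ) * n₁ * (n - n₁)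

/-- C4 (owner helper576) -/
def C4Stmt {D : TData k Q} {p c0 c1 : ℕ} (X : DerData D p c0 c1) : Prop :=
  ∀ (R : ℕ) (W : ℤ → Submodule k (Fin R → Q)) (n : ℕ) (b : ℚ), 0 < R → CHyp X W n b →
    ∀ Y : Submodule D.K0 (Fin R → Q), ∀ (n₁ : ℕ) (b₁ c₁ : ℚ), HasHP (interU W Y) n₁ b₁ c₁ →
      b₁ * n - n₁ * b ≤ ((p : ℚ) / 2 + (R - 1) * c0 + c1) * n₁ * n

/-- C5 (owner helper576) -/
def C5Stmt {D : TData k Q} {p c0 c1 : ℕ} (X : DerData D p c0 c1) : Prop :=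
  ∀ (R : ℕ) (W : ℤ → Submodule k (Fin R → Q)) (n : ℕ) (b : ℚ), 0 < R → CHyp X W n b →
    ∀ Y : Submodule D.K0 (Fin R → Q), ∀ (n₁ : ℕ) (b₁ c₁ : ℚ), HasHP (interU W Y) n₁ b₁ c₁ →
      b₁ * n - n₁ * b ≤ ((p : ℚ) / 2 + (R - 1) * c0 + c1) * (n - n₁) * n

/-- P1 for intersections with `Q`-subspaces -/
def P1Stmt (D : TData k Q) : Prop :=
  ∀ (R : ℕ) (G : ℤ → Submodule k (Fin R → Q)), IsTLat D G → ∀ V' : Submodule Q (Fin R → Q),
    ∃ (n₁ : ℕ) (b₁ c₁ : ℚ), HasHP (interU G V') n₁ b₁ c₁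

/-- P5 over `K₀` for families in `Q^R` -/
def P5Stmt (D : TData k Q) : Prop :=
  ∀ (R : ℕ) (E : ℤ → Submodule k (Fin R → Q)), IsLat D.u D.v E → ∀ (n : ℕ) (b c : ℚ),
    HasHP E n b c → 0 < n → ∀ s₁ s₂ : ℚ,
    (∀ (U : Submodule D.K0 (Fin R → Q)) (n₁ : ℕ) (b₁ c₁ : ℚ), HasHP (interU E U) n₁ b₁ c₁ →
      b₁ * n - n₁ * b ≤ s₁ * n₁ * n) →
    (∀ (U : Submodule D.K0 (Fin R → Q)) (n₁ : ℕ) (b₁ c₁ : ℚ), HasHP (interU E U) n₁ b₁ c₁ →
      b₁ * n - n₁ * b ≤ s₂ * (n - n₁) * n) →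
    Jinv n b c ≤ n / 2 * s₁ * s₂

/-- **(C6)** assembly. -/
theorem upperBound_of {D : TData k Q} {p N c0 c1 : ℕ} [Fact p.Prime] [CharP Q p]
    (X : DerData D p c0 c1) (hN : 0 < N) {bT : ℚ} (hC3 : C3 D p N bT) (hC4 : C4Stmt X)
    (hC5 : C5Stmt X) (hP1 : P1Stmt D) (hP5 : P5Stmt D) : UpperBound D p N c0 c1 := by
  intro R G hR hG b c b' c' hHP hNSS hW
  have hT : IsTLat D (frobPull D p G) := isTLat_frobPull D hG
  have hn : 0 < N * R := Nat.mul_pos hN hR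
  have hCH : CHyp X (frobPull D p G) (N * R) b' :=
    { tlat := hT
      hp := ⟨c', hW⟩
      der := fun j m w hw => frobPull_der X j m w hw
      slope := fun U hU n₁ b₁ c₁ h₁ => by
        have := hypH X hC3 hG hHP hNSS (hP1 R G hG) hW U hU n₁ b₁ c₁ h₁
        exact_mod_cast this }
  have h := hP5 R (frobPull D p G) hT.lat (N * R) b' c' hW hn
    ((p : ℚ) / 2 + (R - 1) * c0 + c1) ((p : ℚ) / 2 + (R - 1) * c0 + c1)
    (hC4 R _ (N * R) b' hR hCH) (hC5 R _ (N * R) b' hR hCH)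
  refine h.trans (le_of_eq ?_)
  push_cast
  ring

end Crest.Agent.R169.PC
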