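import Crest.Agent.R169.Frob
import Crest.Agent.R169.TBasic
import Crest.Agent.R169.Desc

/-!
Row 169, Part C (helper461), C1: the Frobenius pull-back `W = T·φ(G)` of a `T`-lattice `G` in `Q^R`
is a `T`-lattice, and derivations of `Q` with `d(F_m) ≤ F_{m+c₀}` map `W_m` into `W_{m+c₀}`.
-/

set_option autoImplicit false
set_option linter.unusedSectionVars false

namespace Crest.Agent.R169.PC

variable {k Q : Type} [Field k] [Field Q] [Algebra k Q]

section frobPull

variable (D : TData k Q) {p R : ℕ} [Fact p.Prime] [CharP Q p]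
  {G : ℤ → Submodule k (Fin R → Q)}

omit [Fact p.Prime] [CharP Q p] in
theorem phi_eq_frobVec [Fact p.Prime] [CharP Q p] (g : Fin R → Q) :
    phi p g = frobVec p (Fin R) g := rfl

theorem phi_apply (g : Fin R → Q) (i : Fin R) : phi p g i = g i ^ p := rfl

theorem phi_zero : phi p (0 : Fin R → Q) = 0 := map_zero (frobVec p (Fin R))

theorem phi_add (a b : Fin R → Q) : phi p (a + b) = phi p a + phi p b :=
  map_add (frobVec p (Fin R)) a b

theorem phi_smul (a : Q) (g : Fin R → Q) : phi p (a • g) = a ^ p • phi p g :=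
  frobVec_smul p a g

theorem mem_frobPull {i j m : ℤ} (h : i + p * j = m) {f : Q} (hf : f ∈ D.F i)
    {g : Fin R → Q} (hg : g ∈ G j) : f • phi p g ∈ frobPull D p G m :=
  Submodule.subset_span ⟨j, f, by rwa [← h, add_sub_cancel_right], g, hg, rfl⟩

theorem frobPull_le {m : ℤ} (S : Submodule k (Fin R → Q))
    (h : ∀ i j : ℤ, i + p * j = m → ∀ f ∈ D.F i, ∀ g ∈ G j, f • phi p g ∈ S) :
    frobPull D p G m ≤ S := by
  refine Submodule.span_le.2 ?_
  rintro w ⟨j, f, hf, g, hg, rfl⟩
  exact h (m - p * j) j (by ring) f hf g hg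

theorem frobPull_act {i m : ℤ} {f : Q} (hf : f ∈ D.F i) {w : Fin R → Q}
    (hw : w ∈ frobPull D p G m) : f • w ∈ frobPull D p G (i + m) := by
  have h : frobPull D p G m ≤
      (frobPull D p G (i + m)).comap ((LinearMap.mulLeft k f).compLeft (Fin R)) := by
    refine frobPull_le D _ ?_
    intro i' j' hij f' hf' g' hg'
    rw [Submodule.mem_comap]
    have e : (LinearMap.mulLeft k f).compLeft (Fin R) (f' • phi p g')
        = (f * f') • phi p g' := by
      funext r
      simp [mul_assoc]
    rw [e]
    exact mem_frobPull D (by rw [← hij]; ring) (D.mul_mem _ _ _ hf _ hf') hg'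
  have := h hw
  rw [Submodule.mem_comap] at this
  have e : (LinearMap.mulLeft k f).compLeft (Fin R) w = f • w := by
    funext r
    simp
  rwa [e] at this

theorem frobPull_mono (m : ℤ) : frobPull D p G m ≤ frobPull D p G (m + 1) := by
  refine frobPull_le D _ ?_
  intro i j hij f hf g hg
  exact mem_frobPull D (i := i + 1) (by rw [← hij]; ring) (D.F_mono (by omega) hf) hg

theorem frobVec_algebraMap_smul (c : k) (g : Fin R → Q) :
    phi p (c • g) = (c ^ p) • phi p g := by
  funext r
  simp only [phi_apply, Pi.smul_apply]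
  rw [Algebra.smul_def, mul_pow, ← map_pow, ← Algebra.smul_def]

/-- finite dimensionality of `W_m` -/
theorem frobPull_fin (hG : IsTLat D G) (m : ℤ) : Module.Finite k (frobPull D p G m) := by
  classical
  have hp : 0 < (p : ℤ) := by exact_mod_cast (Fact.out : p.Prime).pos
  obtain ⟨j0, hj0⟩ := hG.lat.bot
  have hF : ∀ i, (D.F i).FG := fun i => (Submodule.fg_iff_finiteDimensional _).2 (D.lat.fin i)
  have hGf : ∀ j, (G j).FG := fun j => (Submodule.fg_iff_finiteDimensional _).2 (hG.lat.fin j)
  choose s hs using hF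
  choose t ht using hGf
  let B : Finset (Fin R → Q) := (Finset.Icc j0 (max j0 (m + |j0| * p))).biUnion fun j =>
    Finset.image₂ (fun f g => f • phi p g) (s (m - p * j)) (t j)
  have hle : frobPull D p G m ≤ Submodule.span k (B : Set (Fin R → Q)) := by
    refine frobPull_le D _ ?_
    intro i j hij f hf g hg
    by_cases hj : j ≤ j0
    · rw [hj0 j hj, Submodule.mem_bot] at hg
      rw [hg, phi_zero, smul_zero]
      exact Submodule.zero_mem _
    by_cases hi : i < 0
    · rw [D.F_neg i hi, Submodule.mem_bot] at hf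
      rw [hf, zero_smul]
      exact Submodule.zero_mem _
    push Not at hj hi
    have hjmem : j ∈ Finset.Icc j0 (max j0 (m + |j0| * p)) := by
      rw [Finset.mem_Icc]
      refine ⟨hj.le, ?_⟩
      apply le_max_of_le_right
      by_cases hj1 : j ≤ 0
      · have h1 : -|j0| ≤ j0 := neg_abs_le j0
        have h2 : m = i + p * j := hij.symm
        have h3 : (p : ℤ) * (j + |j0|) ≥ 1 * (j + |j0|) := by
          apply mul_le_mul_of_nonneg_right
          · omega
          · omega
        nlinarith
      · have h2 : m = i + p * j := hij.symm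
        have h3 : (p : ℤ) * j ≥ 1 * j := by
          apply mul_le_mul_of_nonneg_right
          · omega
          · omega
        have h4 : 0 ≤ |j0| * (p : ℤ) := by positivity
        linarith
    have hieq : i = m - p * j := by rw [← hij]; ring
    subst hieq
    -- bilinear argument
    have key : ∀ g ∈ Submodule.span k (t j : Set (Fin R → Q)),
        ∀ f ∈ Submodule.span k (s (m - p * j) : Set Q),
        f • phi p g ∈ Submodule.span k (B : Set (Fin R → Q)) := by
      intro g hg
      induction hg using Submodule.span_induction with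
      | mem g hg =>
        intro f hf
        induction hf using Submodule.span_induction with
        | mem f hf =>
          refine Submodule.subset_span ?_
          simp only [B, Finset.coe_biUnion, Set.mem_iUnion]
          exact ⟨j, hjmem, by
            rw [Finset.coe_image₂]
            exact ⟨f, hf, g, hg, rfl⟩⟩
        | zero => rw [zero_smul]; exact Submodule.zero_mem _
        | add x y _ _ hx hy => rw [add_smul]; exact Submodule.add_mem _ hx hy
        | smul c x _ hx => rw [smul_assoc]; exact Submodule.smul_mem _ _ hx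
      | zero => intro f _; rw [phi_zero, smul_zero]; exact Submodule.zero_mem _
      | add x y _ _ hx hy =>
        intro f hf
        rw [phi_add, smul_add]
        exact Submodule.add_mem _ (hx f hf) (hy f hf)
      | smul c x _ hx =>
        intro f hf
        rw [frobVec_algebraMap_smul, smul_comm]
        exact Submodule.smul_mem _ _ (hx f hf)
    exact key g (by rw [ht j]; exact hg) f (by rw [hs]; exact hf)
  exact Submodule.finiteDimensional_of_le hle

theorem frobPull_bot (hG : IsTLat D G) : ∃ m₀ : ℤ, ∀ m ≤ m₀, frobPull D p G m = ⊥ := by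
  have hp : 0 < (p : ℤ) := by exact_mod_cast (Fact.out : p.Prime).pos
  obtain ⟨j0, hj0⟩ := hG.lat.bot
  refine ⟨p * j0, fun m hm => ?_⟩
  rw [eq_bot_iff]
  refine frobPull_le D _ ?_
  intro i j hij f hf g hg
  rw [Submodule.mem_bot]
  by_cases hj : j ≤ j0
  · rw [hj0 j hj, Submodule.mem_bot] at hg
    rw [hg, phi_zero, smul_zero]
  · have h1 : (p : ℤ) * (j0 + 1) ≤ p * j := by
      apply mul_le_mul_of_nonneg_left
      · omega
      · omega
    have hi : i < 0 := by nlinarith
    rw [D.F_neg i hi, Submodule.mem_bot] at hf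
    rw [hf, zero_smul]

/-- multiplication by `a ∈ Q` as a `k`-linear map of `Q^R` -/
noncomputable def mulV (k : Type) {Q : Type} [Field k] [Field Q] [Algebra k Q] (R : ℕ) (a : Q) :
    (Fin R → Q) →ₗ[k] (Fin R → Q) := (LinearMap.mulLeft k a).compLeft (Fin R)

theorem mulV_apply (a : Q) (w : Fin R → Q) : mulV k R a w = a • w := by
  funext r
  simp [mulV]

theorem frobPull_gen (hG : IsTLat D G) : ∃ m₁ : ℤ, ∀ m ≥ m₁, ∀ e ∈ frobPull D p G (m + 1),
    ∃ a ∈ frobPull D p G m, ∃ b ∈ frobPull D p G m, ∃ c ∈ frobPull D p G m,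
    e = a + D.u • b + D.v • c := by
  have hp : 0 < (p : ℤ) := by exact_mod_cast (Fact.out : p.Prime).pos
  obtain ⟨j1, hj1⟩ := hG.lat.gen
  obtain ⟨i1, hi1⟩ := D.lat.gen
  refine ⟨i1 + p * j1, fun m hm => ?_⟩
  set W := frobPull D p G m with hW
  set B : Submodule k (Fin R → Q) := W ⊔ (W.map (mulV k R D.u) ⊔ W.map (mulV k R D.v)) with hB
  -- all generators are in `B`
  have key : ∀ n : ℕ, ∀ i j : ℤ, j ≤ j1 + n → i + p * j = m + 1 → ∀ f ∈ D.F i, ∀ g ∈ G j,
      f • phi p g ∈ B := by
    intro n
    induction n with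
    | zero =>
      intro i j hj hij f hf g hg
      have hpj : (p : ℤ) * j ≤ p * j1 := mul_le_mul_of_nonneg_left (by simpa using hj) hp.le
      have hi : i1 ≤ i - 1 := by
        have : i1 + p * j1 ≤ m := hm
        linarith
      have hf' : f ∈ D.F (i - 1 + 1) := by simpa using hf
      obtain ⟨a, ha, b, hb, c, hc, hfabc⟩ := hi1 (i - 1) hi f hf'
      have hij' : i - 1 + p * j = m := by linarith
      have e : f • phi p g = a • phi p g
          + (D.u • (b • phi p g) + D.v • (c • phi p g)) := by
        rw [hfabc, smul_eq_mul, smul_eq_mul, add_smul, add_smul, mul_smul, mul_smul, add_assoc]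
      rw [e]
      refine Submodule.add_mem_sup (mem_frobPull D hij' ha hg)
        (Submodule.add_mem_sup ?_ ?_)
      · exact ⟨_, mem_frobPull D hij' hb hg, mulV_apply _ _⟩
      · exact ⟨_, mem_frobPull D hij' hc hg, mulV_apply _ _⟩
    | succ n ih =>
      intro i j hj hij f hf g hg
      by_cases hjn : j ≤ j1 + n
      · exact ih i j hjn hij f hf g hg
      have hj' : j1 ≤ j - 1 := by push_cast at hj; omega
      have hg' : g ∈ G (j - 1 + 1) := by simpa using hg
      obtain ⟨a, ha, b, hb, c, hc, hgabc⟩ := hj1 (j - 1) hj' g hg'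
      have hij' : (i + p) + p * (j - 1) = m + 1 := by linarith
      have hf0 : f ∈ D.F (i + p) := D.F_mono (by omega) hf
      have hfu : f * D.u ^ p ∈ D.F (i + p) := D.mul_mem _ _ _ hf _ (D.pow_mem D.u_mem p)
      have hfv : f * D.v ^ p ∈ D.F (i + p) := D.mul_mem _ _ _ hf _ (D.pow_mem D.v_mem p)
      have hjn' : j - 1 ≤ j1 + n := by push_cast at hj; omega
      have e : f • phi p g = f • phi p a
          + (f * D.u ^ p) • phi p b + (f * D.v ^ p) • phi p c := by
        rw [hgabc, phi_add, phi_add, phi_smul, phi_smul, smul_add, smul_add, mul_smul,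
          mul_smul]
      rw [e]
      exact Submodule.add_mem _ (Submodule.add_mem _ (ih _ _ hjn' hij' _ hf0 _ ha)
        (ih _ _ hjn' hij' _ hfu _ hb)) (ih _ _ hjn' hij' _ hfv _ hc)
  have hle : frobPull D p G (m + 1) ≤ B := by
    refine frobPull_le D _ ?_
    intro i j hij f hf g hg
    refine key (j - j1).toNat i j ?_ hij f hf g hg
    have := Int.self_le_toNat (j - j1)
    omega
  intro e he
  obtain ⟨a, ha, x, hx, rfl⟩ := Submodule.mem_sup.1 (hle he)
  obtain ⟨b, hb, c, hc, rfl⟩ := Submodule.mem_sup.1 hx
  obtain ⟨b', hb', rfl⟩ := hb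
  obtain ⟨c', hc', rfl⟩ := hc
  exact ⟨a, ha, b', hb', c', hc', by rw [mulV_apply, mulV_apply, add_assoc]⟩

theorem frobPull_full (hG : IsTLat D G) : spanK Q (frobPull D p G) = ⊤ := by
  set S := spanK Q (frobPull D p G) with hS
  have h1 : spanK Q G ≤ frobComap p S := by
    refine Submodule.span_le.2 ?_
    intro g hg
    rw [Set.mem_iUnion] at hg
    obtain ⟨j, hj⟩ := hg
    simp only [SetLike.mem_coe, mem_frobComap]
    refine Submodule.subset_span (Set.mem_iUnion.2 ⟨p * j, ?_⟩)
    have := mem_frobPull D (p := p) (i := 0) (j := j) (m := p * j) (by ring) D.one_mem_zero hj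
    rw [one_smul] at this
    exact this
  rw [hG.full, top_le_iff] at h1
  rw [eq_top_iff]
  intro v _
  have h2 : ∀ r, (Pi.single r (1 : Q) : Fin R → Q) ∈ S := by
    intro r
    have h3 : (Pi.single r (1 : Q) : Fin R → Q) ∈ frobComap p S := by rw [h1]; trivial
    rw [mem_frobComap, ← phi_eq_frobVec] at h3
    have h4 : phi p (Pi.single r (1 : Q)) = Pi.single r (1 : Q) := by
      funext r'
      rw [phi_apply]
      by_cases h : r' = r
      · subst h; simp
      · simp [h, (Fact.out : p.Prime).ne_zero]
    rwa [h4] at h3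
  have : v = ∑ r, v r • (Pi.single r (1 : Q) : Fin R → Q) := by
    funext r'
    simp [Finset.sum_apply, Pi.single_apply]
  rw [this]
  exact Submodule.sum_mem _ fun r _ => Submodule.smul_mem _ _ (h2 r)

/-- **(C1)** `W = T·φ(G)` is a `T`-lattice. -/
theorem isTLat_frobPull (hG : IsTLat D G) : IsTLat D (frobPull D p G) where
  lat :=
    { mono := frobPull_mono D
      umul := by
        intro m e he
        have := frobPull_act D D.u_mem he
        rwa [add_comm] at this
      vmul := by
        intro m e he
        have := frobPull_act D D.v_mem he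
        rwa [add_comm] at this
      fin := frobPull_fin D hG
      bot := frobPull_bot D hG
      gen := frobPull_gen D hG }
  act := fun _ _ _ hf _ hg => frobPull_act D hf hg
  full := frobPull_full D hG

end frobPull

section deriv

variable {D : TData k Q} {p c0 c1 : ℕ} (X : DerData D p c0 c1)

theorem d_frob [CharP Q p] (j : Fin 2) (a : Q) : X.d j (a ^ p) = 0 := by
  rw [Derivation.leibniz_pow]
  simp

/-- `D`-stable subspaces -/
def DStable {D : TData k Q} {p c0 c1 : ℕ} (X : DerData D p c0 c1) {R : ℕ}
    (U : Submodule Q (Fin R → Q)) : Prop :=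
  ∀ j, ∀ w ∈ U, (fun i => X.d j (w i)) ∈ U

/-- **(C1)** derivations on the Frobenius pull-back. -/
theorem frobPull_der [Fact p.Prime] [CharP Q p] {R : ℕ} {G : ℤ → Submodule k (Fin R → Q)}
    (j : Fin 2) (m : ℤ) (w : Fin R → Q) (hw : w ∈ frobPull D p G m) :
    (fun i => X.d j (w i)) ∈ frobPull D p G (m + c0) := by
  have h : frobPull D p G m ≤
      (frobPull D p G (m + c0)).comap ((X.d j).toLinearMap.compLeft (Fin R)) := by
    refine frobPull_le D _ ?_
    intro i' j' hij f hf g hg
    rw [Submodule.mem_comap]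
    have e : (X.d j).toLinearMap.compLeft (Fin R) (f • phi p g)
        = X.d j f • phi p g := by
      funext r
      have h1 : (X.d j).toLinearMap.compLeft (Fin R) (f • phi p g) r
          = X.d j (f * g r ^ p) := rfl
      rw [h1, Derivation.leibniz, d_frob X]
      simp [mul_comm, phi_apply]
    rw [e]
    exact mem_frobPull D (by rw [← hij]; ring) (X.deg j _ _ hf) hg
  exact h hw

/-- **(C2)** -/
theorem dstable_eq_frobSub [Fact p.Prime] [CharP Q p] {R : ℕ} (U : Submodule Q (Fin R → Q))
    (hU : DStable X U) : U = frobSub p (frobComap p U) := by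
  refine eq_span_frob p (fun j => ((X.d j).toLinearMap.toAddMonoidHom)) ?_ ?_ U hU
  · intro j
    exact (X.d j).map_one_eq_zero
  · intro a ha
    obtain ⟨g, hg⟩ := X.ker a ha
    exact ⟨g, hg.symm⟩

end deriv

end Crest.Agent.R169.PC

namespace Crest.Agent.R169

export PC (phi_eq_frobVec phi_apply phi_zero phi_add phi_smul mem_frobPull frobPull_le
  frobPull_act frobPull_mono frobPull_fin frobPull_bot frobPull_gen isTLat_frobPull)

end Crest.Agent.R169
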