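import Crest.Agent.R169.C.Slope
import Crest.Agent.R169.Flag1

/-!
Row 169, Part D step (5) (helper461): C3 for all subspaces from C3 for whole lattices, by additivity
along `ψ : Q^R → Q^R''` with kernel `U` and its Frobenius twist.
-/

set_option autoImplicit false
set_option linter.unusedSectionVars false

namespace Crest.Agent.R169.C3W

open Module Flag1 PC

section Twist

variable {k Q : Type} [Field k] [Field Q] [Algebra k Q] {D : TData k Q} {p : ℕ}
  [Fact p.Prime] [CharP Q p] {R S : ℕ}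

/-- Frobenius twist of a linear map. -/
noncomputable def twist (p : ℕ) {R S : ℕ} (ψ : (Fin R → Q) →ₗ[Q] (Fin S → Q)) :
    (Fin R → Q) →ₗ[Q] (Fin S → Q) :=
  LinearMap.pi fun s => lphi p ((LinearMap.proj s) ∘ₗ ψ)

theorem twist_phi (ψ : (Fin R → Q) →ₗ[Q] (Fin S → Q)) (w : Fin R → Q) :
    twist p ψ (phi p w) = phi p (ψ w) := by
  funext s
  unfold twist
  rw [LinearMap.pi_apply, lphi_phi, phi_apply]
  rfl

theorem mapT_frobPull (ψ : (Fin R → Q) →ₗ[Q] (Fin S → Q)) (G : ℤ → Submodule k (Fin R → Q)) :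
    mapT (twist p ψ) (frobPull D p G) = frobPull D p (mapT ψ G) := by
  funext m
  unfold mapT frobPull
  rw [Submodule.map_span]
  congr 1
  ext x
  constructor
  · rintro ⟨_, ⟨j, f, hf, g, hg, rfl⟩, rfl⟩
    refine ⟨j, f, hf, ψ g, ⟨g, hg, rfl⟩, ?_⟩
    rw [LinearMap.restrictScalars_apply, map_smul, twist_phi]
  · rintro ⟨j, f, hf, _, ⟨g, hg, rfl⟩, rfl⟩
    refine ⟨f • phi p g, ⟨j, f, hf, g, hg, rfl⟩, ?_⟩
    rw [LinearMap.restrictScalars_apply, map_smul, twist_phi]
    rfl

theorem phi_single (i : Fin R) : phi p (Pi.single i (1 : Q) : Fin R → Q) = Pi.single i 1 := by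
  funext j
  rw [phi_apply]
  by_cases hij : j = i
  · subst hij; simp
  · simp [Pi.single_eq_of_ne hij, (Fact.out : p.Prime).ne_zero]

theorem phi_sub (a b : Fin R → Q) : phi p (a - b) = phi p a - phi p b :=
  map_sub (frobVec p (Fin R)) a b

theorem eq_sum_phi (w : Fin R → Q) :
    w = ∑ i, w i • phi p (Pi.single i (1 : Q) : Fin R → Q) := by
  funext j
  simp only [phi_single]
  simp [Finset.sum_apply, Pi.single_apply]

theorem twist_surj {ψ : (Fin R → Q) →ₗ[Q] (Fin S → Q)} {σ : (Fin S → Q) →ₗ[Q] (Fin R → Q)}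
    (h : ∀ x, ψ (σ x) = x) (w : Fin S → Q) : twist p ψ (twist p σ w) = w := by
  conv_lhs => rw [eq_sum_phi (p := p) w]
  conv_rhs => rw [eq_sum_phi (p := p) w]
  rw [map_sum, map_sum]
  refine Finset.sum_congr rfl fun i _ => ?_
  rw [map_smul, map_smul, twist_phi, twist_phi, h]

/-- the kernel of the Frobenius twist is the Frobenius pull-back of the kernel. -/
theorem ker_twist {ψ : (Fin R → Q) →ₗ[Q] (Fin S → Q)} {σ : (Fin S → Q) →ₗ[Q] (Fin R → Q)}
    (h : ∀ x, ψ (σ x) = x) {U : Submodule Q (Fin R → Q)} (hU : LinearMap.ker ψ = U) :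
    LinearMap.ker (twist p ψ) = frobSub p U := by
  apply le_antisymm
  · intro w hw
    rw [LinearMap.mem_ker] at hw
    have h1 : twist p σ (twist p ψ w) = 0 := by rw [hw, map_zero]
    have h2 : w = ∑ i, w i • phi p ((Pi.single i (1 : Q) : Fin R → Q)
        - σ (ψ (Pi.single i (1 : Q) : Fin R → Q))) := by
      have h3 : twist p σ (twist p ψ w) =
          ∑ i, w i • phi p (σ (ψ (Pi.single i (1 : Q) : Fin R → Q))) := by
        conv_lhs => rw [eq_sum_phi (p := p) w]
        rw [map_sum, map_sum]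
        refine Finset.sum_congr rfl fun i _ => ?_
        rw [map_smul, map_smul, twist_phi, twist_phi]
      have h4 : w - twist p σ (twist p ψ w) = w := by rw [h1, sub_zero]
      conv_lhs => rw [← h4, h3]
      conv_lhs => rw [eq_sum_phi (p := p) w]
      rw [← Finset.sum_sub_distrib]
      refine Finset.sum_congr rfl fun i _ => ?_
      rw [phi_sub, smul_sub]
      congr 2
      rw [← eq_sum_phi (p := p) w]
    rw [h2]
    refine Submodule.sum_mem _ fun i _ => Submodule.smul_mem _ _ (Submodule.subset_span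
      ⟨_, ?_, rfl⟩)
    rw [SetLike.mem_coe, ← hU, LinearMap.mem_ker, map_sub, h, sub_self]
  · unfold frobSub
    rw [Submodule.span_le]
    rintro _ ⟨u, hu, rfl⟩
    rw [SetLike.mem_coe, LinearMap.mem_ker, twist_phi]
    rw [SetLike.mem_coe, ← hU, LinearMap.mem_ker] at hu
    rw [hu]
    exact phi_zero

end Twist

section HP

variable {k Q V V' : Type} [Field k] [Field Q] [Algebra k Q] [AddCommGroup V] [Module k V]
  [Module Q V] [IsScalarTower k Q V] [AddCommGroup V'] [Module k V'] [Module Q V']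
  [IsScalarTower k Q V']

theorem finrank_interU (G : ℤ → Submodule k V) (hfin : ∀ m, Module.Finite k (G m))
    (ψ : V →ₗ[Q] V') {U : Submodule Q V} (hU : LinearMap.ker ψ = U) (m : ℤ) :
    finrank k (mapT ψ G m) + finrank k (interU G U m) = finrank k (G m) := by
  have := hfin m
  have h := finrank_map_add' (G m) (ψ.restrictScalars k)
  have h1 : LinearMap.ker (ψ.restrictScalars k) = U.restrictScalars k := by
    rw [← hU]
    rfl
  rw [h1] at h
  exact h

/-- Hilbert polynomial of the intersection with a kernel. -/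
theorem hasHP_interU (G : ℤ → Submodule k V) (hfin : ∀ m, Module.Finite k (G m))
    (ψ : V →ₗ[Q] V') {U : Submodule Q V} (hU : LinearMap.ker ψ = U) {n n₂ d : ℕ} {b c b₂ c₂ : ℚ}
    (h : HasHP G n b c) (h₂ : HasHP (mapT ψ G) n₂ b₂ c₂) (hd : n = n₂ + d) :
    HasHP (interU G U) d (b - b₂) (c - c₂) := by
  obtain ⟨m0, hm0⟩ := h
  obtain ⟨m1, hm1⟩ := h₂
  refine ⟨max m0 m1, fun m hm => ?_⟩
  have e0 := hm0 m (le_trans (le_max_left _ _) hm)
  have e1 := hm1 m (le_trans (le_max_right _ _) hm)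
  have e2 := finrank_interU G hfin ψ hU m
  have e3 : (finrank k (mapT ψ G m) : ℚ) + finrank k (interU G U m) = finrank k (G m) := by
    exact_mod_cast e2
  subst hd
  push_cast at e0
  linarith

end HP

/-- **Step (5)**: C3 for all subspaces, from C3 for whole lattices. -/
theorem c3_of_whole {k Q : Type} [Field k] [Field Q] [Algebra k Q] (D : TData k Q) (p N : ℕ)
    (bT : ℚ) [Fact p.Prime] [CharP k p] (hN : 0 < N)
    (hw : ∀ (R : ℕ) (G : ℤ → Submodule k (Fin R → Q)), IsTLat D G →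
      ∃ b c b' c' : ℚ, HasHP G (N * R) b c ∧ HasHP (frobPull D p G) (N * R) b' c' ∧
        b' = R * bT + p * (b - R * bT)) : C3 D p N bT := by
  haveI : CharP Q p := charP_of_injective_algebraMap (algebraMap k Q).injective p
  intro R G hG U n₁ b₁ c₁ h₁
  set S := finrank Q ((Fin R → Q) ⧸ U) with hS
  let e : ((Fin R → Q) ⧸ U) ≃ₗ[Q] (Fin S → Q) := (Module.finBasis Q ((Fin R → Q) ⧸ U)).equivFun
  let ψ : (Fin R → Q) →ₗ[Q] (Fin S → Q) := e.toLinearMap ∘ₗ U.mkQ
  have hker : LinearMap.ker ψ = U := by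
    rw [LinearMap.ker_comp, LinearEquiv.ker, Submodule.comap_bot, Submodule.ker_mkQ]
  have hsurj : Function.Surjective ψ := e.surjective.comp (Submodule.mkQ_surjective U)
  obtain ⟨σ, hσ⟩ := ψ.exists_rightInverse_of_surjective (LinearMap.range_eq_top.2 hsurj)
  have hσ' : ∀ x, ψ (σ x) = x := fun x => LinearMap.congr_fun hσ x
  have hdim : R = S + finrank Q U := by
    have := Submodule.finrank_quotient_add_finrank U
    rw [Module.finrank_fin_fun] at this
    exact this.symm
  obtain ⟨b, c, b', c', hb, hb', hbb⟩ := hw R G hG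
  obtain ⟨b₂, c₂, b₂', c₂', hb₂, hb₂', hbb₂⟩ := hw S (mapT ψ G) (isTLat_mapT hG ψ hsurj)
  have hd : N * R = N * S + N * finrank Q U := by rw [← mul_add, ← hdim]
  have h3 := hasHP_interU G hG.lat.fin ψ hker hb hb₂ hd
  obtain ⟨rfl, rfl, rfl⟩ := hasHP_unique h₁ h3
  rw [← mapT_frobPull] at hb₂'
  have h4 := hasHP_interU (frobPull D p G) (frobPull_fin D hG) (twist p ψ)
    (ker_twist (p := p) hσ' hker) hb' hb₂' hd
  refine ⟨c' - c₂', ?_⟩
  have hN' : (N : ℚ) ≠ 0 := by exact_mod_cast hN.ne'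
  have hR : (R : ℚ) = S + finrank Q U := by exact_mod_cast hdim
  have h5 : ((N * finrank Q U : ℕ) : ℚ) * (bT / N) = finrank Q U * bT := by
    push_cast
    field_simp
  have h6 : b' - b₂' = ((N * finrank Q U : ℕ) : ℚ) * (bT / N)
      + p * ((b - b₂) - ((N * finrank Q U : ℕ) : ℚ) * (bT / N)) := by
    rw [h5, hbb, hbb₂, hR]
    ring
  rwa [h6] at h4

end Crest.Agent.R169.C3W
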