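import Crest.Agent.R169.Deriv

/-! Row 169, part C5: the quotient side of the slope estimate for the Frobenius pull-back.
(helper914) -/

set_option autoImplicit false
set_option linter.unusedSectionVars false

namespace Crest.Agent.R169.Deriv

open Module Filter

section Core

variable {k K Q V : Type*} [Field k] [Field K] [Field Q] [Algebra k K] [Algebra K Q]
  [AddCommGroup V] [Module k V] [Module K V] [Module Q V] [IsScalarTower k K V]
  [IsScalarTower K Q V]

/-- the largest `Q`-subspace inside the `K`-subspace `Z`. -/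
def coreQ (Z : Submodule K V) : Submodule Q V where
  carrier := {w | ∀ q : Q, q • w ∈ Z}
  add_mem' := by
    intro a b ha hb q
    rw [smul_add]
    exact Z.add_mem (ha q) (hb q)
  zero_mem' := by
    intro q
    rw [smul_zero]
    exact Z.zero_mem
  smul_mem' := by
    intro a w hw q
    rw [smul_smul]
    exact hw _

theorem mem_coreQ {Z : Submodule K V} {w : V} : w ∈ coreQ (Q := Q) Z ↔ ∀ q : Q, q • w ∈ Z :=
  Iff.rfl

theorem coreQ_le (Z : Submodule K V) : (coreQ (Q := Q) Z).restrictScalars K ≤ Z := by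
  intro w hw
  have := hw (1 : Q)
  rwa [one_smul] at this

/-- derivation-like operators on `V` -/
structure DerOp {ι : Type*} (δ : ι → V →ₗ[k] V) (dQ : ι → Q → Q) : Prop where
  leib : ∀ i (q : Q) (x : V), δ i (q • x) = q • δ i x + dQ i q • x

variable {ι : Type*} {δ : ι → V →ₗ[k] V} {dQ : ι → Q → Q}

/-- `{w ∈ S | δ_i w ∈ S for all i}` -/
def derPre (hδ : DerOp δ dQ) (S : Submodule Q V) : Submodule Q V where
  carrier := {w | w ∈ S ∧ ∀ i, δ i w ∈ S}
  add_mem' := by
    rintro a b ⟨ha, ha'⟩ ⟨hb, hb'⟩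
    refine ⟨S.add_mem ha hb, fun i => ?_⟩
    rw [map_add]
    exact S.add_mem (ha' i) (hb' i)
  zero_mem' := ⟨S.zero_mem, fun i => by rw [map_zero]; exact S.zero_mem⟩
  smul_mem' := by
    rintro q w ⟨hw, hw'⟩
    refine ⟨S.smul_mem q hw, fun i => ?_⟩
    rw [hδ.leib]
    exact S.add_mem (S.smul_mem q (hw' i)) (S.smul_mem _ hw)

theorem mem_derPre (hδ : DerOp δ dQ) {S : Submodule Q V} {w : V} :
    w ∈ derPre hδ S ↔ w ∈ S ∧ ∀ i, δ i w ∈ S := Iff.rfl

theorem derPre_le (hδ : DerOp δ dQ) (S : Submodule Q V) : derPre hδ S ≤ S := fun _ hw => hw.1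

/-- the descending chain -/
def chainT (hδ : DerOp δ dQ) (S₀ : Submodule Q V) : ℕ → Submodule Q V
  | 0 => S₀
  | j + 1 => derPre hδ (chainT hδ S₀ j)

theorem chainT_succ_le (hδ : DerOp δ dQ) (S₀ : Submodule Q V) (j : ℕ) :
    chainT hδ S₀ (j + 1) ≤ chainT hδ S₀ j := derPre_le hδ _

theorem exists_stable [FiniteDimensional Q V] (hδ : DerOp δ dQ) (S₀ : Submodule Q V)
    (hS₀ : S₀ ≠ ⊤) : ∃ j : ℕ, j + 1 ≤ finrank Q V ∧ chainT hδ S₀ (j + 1) = chainT hδ S₀ j := by
  by_contra hno
  push Not at hno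
  have h0 : finrank Q S₀ < finrank Q V := Submodule.finrank_lt hS₀
  have key : ∀ j : ℕ, j ≤ finrank Q V → finrank Q (chainT hδ S₀ j) + j < finrank Q V := by
    intro j
    induction j with
    | zero => intro _; exact h0
    | succ j ih =>
      intro hj
      have h1 := ih (by omega)
      have h2 : chainT hδ S₀ (j + 1) < chainT hδ S₀ j :=
        lt_of_le_of_ne (chainT_succ_le hδ S₀ j) (hno j hj)
      have h3 := Submodule.finrank_lt_finrank_of_lt h2
      omega
  have := key _ le_rfl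
  omega

theorem C5_core [FiniteDimensional K V] [FiniteDimensional Q V] {W : ℤ → Submodule k V}
    {d c : Submodule K V → ℚ} (hH : Hilb W d c) (hδ : DerOp δ dQ) (c0 c1 : ℕ)
    (hder : ∀ i m, ∀ w ∈ W m, δ i w ∈ W (m + c0))
    (T0 : Set Q) (μ : T0 → V →ₗ[k] V) (hμ : ∀ t w, μ t w = (t : Q) • w)
    (hT0 : Submodule.span K T0 = ⊤)
    (hmul : ∀ t m, ∀ w ∈ W m, μ t w ∈ W (m + c1))
    (α : ℚ) (Z : Submodule K V) (hZ : Z ≠ ⊤)
    (hα : ∀ Y : Submodule K V, α * ((finrank K V : ℚ) - finrank K Y) ≤ d ⊤ - d Y)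
    (hαZ : d ⊤ - d Z = α * ((finrank K V : ℚ) - finrank K Z)) :
    ∃ S : Submodule Q V, S ≠ ⊤ ∧ (∀ i, ∀ w ∈ S, δ i w ∈ S) ∧
      d ⊤ - d (S.restrictScalars K)
        ≤ (α + c1 + ((finrank Q V : ℚ) - 1) * c0)
          * ((finrank K V : ℚ) - finrank K (S.restrictScalars K)) := by
  set S₀ : Submodule Q V := coreQ Z with hS₀
  have hS₀top : S₀ ≠ ⊤ := by
    intro h
    apply hZ
    rw [eq_top_iff]
    intro x _
    have : x ∈ S₀ := by rw [h]; trivial
    exact coreQ_le Z this
  set T : ℕ → Submodule K V := fun j => (chainT hδ S₀ j).restrictScalars K with hT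
  -- step 0
  have s0 : SS d Z ⊤ α := by
    intro Y _ _
    have h1 := hα Y
    have h2 : α * ((finrank K Y : ℚ) - finrank K Z)
        = α * ((finrank K V : ℚ) - finrank K Z) - α * ((finrank K V : ℚ) - finrank K Y) := by
      ring
    rw [h2, ← hαZ]
    linarith
  have s1 : SS d (T 0) ⊤ (α + (c1 : ℤ)) := by
    refine SS.step hH μ (T 0) ⊤ Z ⊤ c1 α le_top ?_ ?_ ?_ ?_ ?_ s0
    · intro t q x _
      rw [hμ, hμ]
      have : (t : Q) • q • x - q • (t : Q) • x = 0 := by
        rw [smul_comm (t : Q) q x, sub_self]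
      rw [this]
      exact Z.zero_mem
    · intro t x hx
      rw [hμ]
      exact hx (t : Q)
    · intro x _ hx q
      have hq : q ∈ Submodule.span K T0 := by rw [hT0]; trivial
      induction hq using Submodule.span_induction with
      | mem t ht =>
        have := hx ⟨t, ht⟩
        rwa [hμ] at this
      | zero => rw [zero_smul]; exact Z.zero_mem
      | add a b _ _ ha hb => rw [add_smul]; exact Z.add_mem ha hb
      | smul a b _ hb => rw [smul_assoc]; exact Z.smul_mem a hb
    · intro t x _; trivial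
    · intro t m x hx _
      exact hmul t m x hx
  -- step j
  have hlin : ∀ (j : ℕ) (i : ι) (q : K) (x : V), x ∈ T j → δ i (q • x) - q • δ i x ∈ T j := by
    intro j i q x hx
    have h1 : q • x = (algebraMap K Q q) • x := by rw [algebraMap_smul]
    have h2 : q • δ i x = (algebraMap K Q q) • δ i x := by rw [algebraMap_smul]
    rw [h1, h2, hδ.leib, add_sub_cancel_left]
    exact (chainT hδ S₀ j).smul_mem _ hx
  have s2 : ∀ j : ℕ, SS d (T (j + 1)) (T j) (α + (c1 : ℤ) + (j + 1) * (c0 : ℤ)) := by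
    intro j
    induction j with
    | zero =>
      have := SS.step hH δ (T 1) (T 0) (T 0) ⊤ c0 (α + (c1 : ℤ)) le_top (hlin 0)
        (fun i x hx => hx.2 i) (fun x hx h => ⟨hx, h⟩) (fun i x _ => trivial)
        (fun i m x hx _ => hder i m x hx) s1
      simpa using this
    | succ j ih =>
      have := SS.step hH δ (T (j + 2)) (T (j + 1)) (T (j + 1)) (T j) c0
        (α + (c1 : ℤ) + (j + 1) * (c0 : ℤ)) (chainT_succ_le hδ S₀ j) (hlin (j + 1))
        (fun i x hx => hx.2 i) (fun x hx h => ⟨hx, h⟩) (fun i x hx => hx.2 i)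
        (fun i m x hx _ => hder i m x hx) ih
      have e : α + ((c1 : ℤ) : ℚ) + (((j + 1 : ℕ) : ℚ) + 1) * ((c0 : ℤ) : ℚ)
          = α + ((c1 : ℤ) : ℚ) + ((j : ℚ) + 1) * ((c0 : ℤ) : ℚ) + ((c0 : ℤ) : ℚ) := by
        push_cast; ring
      rw [e]
      exact this
  -- summation
  have s3 : ∀ j : ℕ, d ⊤ - d (T j)
      ≤ (α + c1 + j * c0) * ((finrank K V : ℚ) - finrank K (T j)) := by
    intro j
    induction j with
    | zero =>
      have := s1 ⊤ le_top le_rfl
      rw [finrank_top] at this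
      push_cast at this ⊢
      rw [zero_mul, add_zero]
      exact this
    | succ j ih =>
      have h1 := s2 j (T j) (chainT_succ_le hδ S₀ j) le_rfl
      have h2 : (finrank K (T j) : ℚ) ≤ finrank K V := by
        exact_mod_cast Submodule.finrank_le (T j)
      have h3 : (0 : ℚ) ≤ c0 := by positivity
      push_cast at h1 ⊢
      nlinarith [mul_nonneg h3 (sub_nonneg.2 h2)]
  obtain ⟨j, hj, hst⟩ := exists_stable hδ S₀ hS₀top
  refine ⟨chainT hδ S₀ j, ?_, ?_, ?_⟩
  · intro h
    apply hS₀top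
    rw [eq_top_iff, ← h]
    have : ∀ j, chainT hδ S₀ j ≤ S₀ := by
      intro j
      induction j with
      | zero => exact le_rfl
      | succ j ih => exact (chainT_succ_le hδ S₀ j).trans ih
    exact this j
  · intro i w hw
    rw [← hst] at hw
    exact hw.2 i
  · refine (s3 j).trans ?_
    apply mul_le_mul_of_nonneg_right
    · have h1 : ((j : ℚ) + 1) ≤ finrank Q V := by exact_mod_cast hj
      have h3 : (0 : ℚ) ≤ c0 := by positivity
      nlinarith
    · have : (finrank K (T j) : ℚ) ≤ finrank K V := by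
        exact_mod_cast Submodule.finrank_le (T j)
      linarith

end Core

end Crest.Agent.R169.Deriv
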