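import Crest.Agent.R169.Defs

/-! Row 169, part C: the abstract degree calculus (morphism inequality, chains) behind (C4), (C5). -/

set_option autoImplicit false
set_option linter.unusedSectionVars false

namespace Crest.Agent.R169.SL

open Module Submodule

section RN

/-- rank-nullity restricted to a submodule -/
lemma finrank_map_add_inf_ker {k M N : Type*} [Field k] [AddCommGroup M] [Module k M]
    [AddCommGroup N] [Module k N] (f : M →ₗ[k] N) (A : Submodule k M) [Module.Finite k A] :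
    finrank k (A.map f) + finrank k (A ⊓ LinearMap.ker f : Submodule k M) = finrank k A := by
  have h := LinearMap.finrank_range_add_finrank_ker (f.domRestrict A)
  rw [LinearMap.range_domRestrict] at h
  rw [← h]
  congr 1
  rw [LinearMap.ker_domRestrict]
  have e : (A ⊓ LinearMap.ker f : Submodule k M)
      = (((LinearMap.ker f).submoduleOf A).map A.subtype) := by
    ext x
    simp [Submodule.submoduleOf]
  rw [e]
  exact (LinearEquiv.finrank_eq (Submodule.equivMapOfInjective A.subtype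
    (Submodule.injective_subtype A) _)).symm

end RN

section Calc

variable {k K V : Type} [Field k] [Field K] [Algebra k K] [AddCommGroup V] [Module k V]
  [Module K V] [IsScalarTower k K V]

/-- `W` is a family all of whose intersections with `K`-subspaces have a Hilbert polynomial
(`W` spans `V`). -/
structure Hilb (W : ℤ → Submodule k V) (β γ : Submodule K V → ℚ) : Prop where
  fin : ∀ m, Module.Finite k (W m)
  hp : ∀ Y : Submodule K V, HasHP (interU W Y) (finrank K Y) (β Y) (γ Y)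

/-- comparison of two quadratic polynomials with the same leading coefficient -/
lemma le_of_eventually_quad {r b₁ c₁ b₂ c₂ : ℚ} {m₀ : ℤ}
    (h : ∀ m : ℤ, m₀ ≤ m → r / 2 * (m : ℚ) ^ 2 + b₁ * m + c₁ ≤ r / 2 * (m : ℚ) ^ 2 + b₂ * m + c₂) :
    b₁ ≤ b₂ := by
  by_contra hlt
  push Not at hlt
  obtain ⟨N, hN⟩ := exists_nat_gt ((c₂ - c₁) / (b₁ - b₂))
  have hpos : 0 < b₁ - b₂ := sub_pos.2 hlt
  rw [div_lt_iff₀ hpos] at hN
  have h1 := h (max m₀ N) (le_max_left _ _)
  have h2 : (N : ℚ) ≤ ((max m₀ N : ℤ) : ℚ) := by exact_mod_cast le_max_right m₀ (N : ℤ)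
  nlinarith

/-- the kernel `{s ∈ S | θ s ∈ Z}` of an additive map `S → V/Z` -/
def kerS (S Z : Submodule K V) (θ : V →+ V)
    (hlin : ∀ (a : K), ∀ s ∈ S, θ (a • s) - a • θ s ∈ Z) : Submodule K V where
  carrier := {s | s ∈ S ∧ θ s ∈ Z}
  zero_mem' := by simp
  add_mem' := by
    rintro a b ⟨ha, ha'⟩ ⟨hb, hb'⟩
    exact ⟨S.add_mem ha hb, by rw [map_add]; exact Z.add_mem ha' hb'⟩
  smul_mem' := by
    rintro c x ⟨hx, hx'⟩
    refine ⟨S.smul_mem _ hx, ?_⟩
    have := Z.add_mem (hlin c x hx) (Z.smul_mem c hx')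
    simpa using this

/-- the image `θ(S) + Z` -/
def imS (S Z : Submodule K V) (θ : V →+ V)
    (hlin : ∀ (a : K), ∀ s ∈ S, θ (a • s) - a • θ s ∈ Z) : Submodule K V where
  carrier := {y | ∃ s ∈ S, y - θ s ∈ Z}
  zero_mem' := ⟨0, S.zero_mem, by simp⟩
  add_mem' := by
    rintro a b ⟨s, hs, ha⟩ ⟨t, ht, hb⟩
    refine ⟨s + t, S.add_mem hs ht, ?_⟩
    have := Z.add_mem ha hb
    rw [map_add]
    convert this using 1
    abel
  smul_mem' := by
    rintro c x ⟨s, hs, hx⟩
    refine ⟨c • s, S.smul_mem _ hs, ?_⟩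
    have := Z.sub_mem (Z.smul_mem c hx) (hlin c s hs)
    convert this using 1
    rw [smul_sub]
    abel

variable {S Z : Submodule K V} {θ : V →+ V}
  {hlin : ∀ (a : K), ∀ s ∈ S, θ (a • s) - a • θ s ∈ Z}

lemma mem_kerS {x : V} : x ∈ kerS S Z θ hlin ↔ x ∈ S ∧ θ x ∈ Z := Iff.rfl

lemma mem_imS {x : V} : x ∈ imS S Z θ hlin ↔ ∃ s ∈ S, x - θ s ∈ Z := Iff.rfl

lemma kerS_le : kerS S Z θ hlin ≤ S := fun _ h => h.1

lemma le_imS : Z ≤ imS S Z θ hlin := fun x hx => ⟨0, S.zero_mem, by simpa using hx⟩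

lemma map_mem_imS {s : V} (hs : s ∈ S) : θ s ∈ imS S Z θ hlin := ⟨s, hs, by simp⟩

lemma imS_le {X : Submodule K V} (h1 : Z ≤ X) (h2 : ∀ s ∈ S, θ s ∈ X) : imS S Z θ hlin ≤ X := by
  rintro x ⟨s, hs, hx⟩
  have := X.add_mem (h1 hx) (h2 s hs)
  simpa using this

variable (S Z θ hlin) in
/-- the `K`-linear map `S → V/Z` -/
def barS : S →ₗ[K] (V ⧸ Z) where
  toFun s := Z.mkQ (θ s)
  map_add' a b := by simp
  map_smul' a b := by
    have h := hlin a b b.2
    rw [← Submodule.ker_mkQ Z, LinearMap.mem_ker, map_sub, sub_eq_zero] at h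
    simp only [Submodule.coe_smul, RingHom.id_apply]
    rw [h, map_smul]

lemma barS_apply (s : S) : barS S Z θ hlin s = Z.mkQ (θ s) := rfl

lemma ker_barS_map : (LinearMap.ker (barS S Z θ hlin)).map S.subtype = kerS S Z θ hlin := by
  ext x
  simp only [Submodule.mem_map, LinearMap.mem_ker, barS_apply, Submodule.mkQ_apply,
    Submodule.Quotient.mk_eq_zero, Submodule.subtype_apply, Subtype.exists, exists_and_right,
    exists_eq_right, mem_kerS]
  constructor
  · rintro ⟨h, h'⟩; exact ⟨h, h'⟩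
  · rintro ⟨h, h'⟩; exact ⟨h, h'⟩

lemma range_barS : LinearMap.range (barS S Z θ hlin) = (imS S Z θ hlin).map Z.mkQ := by
  ext x
  constructor
  · rintro ⟨s, rfl⟩
    exact ⟨θ s, map_mem_imS s.2, rfl⟩
  · rintro ⟨y, ⟨s, hs, hy⟩, rfl⟩
    refine ⟨⟨s, hs⟩, ?_⟩
    rw [← Submodule.ker_mkQ Z, LinearMap.mem_ker, map_sub, sub_eq_zero] at hy
    rw [barS_apply]
    exact hy.symm

variable [Module.Finite K V]

variable (hlin) in
/-- ranks in the morphism step -/
lemma rank_step : (finrank K (imS S Z θ hlin) : ℚ) - finrank K Z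
    = finrank K S - finrank K (kerS S Z θ hlin) := by
  have h1 := LinearMap.finrank_range_add_finrank_ker (barS S Z θ hlin)
  have h2 : finrank K (LinearMap.ker (barS S Z θ hlin)) = finrank K (kerS S Z θ hlin) := by
    rw [← ker_barS_map (hlin := hlin)]
    exact (LinearEquiv.finrank_eq (Submodule.equivMapOfInjective S.subtype
      (Submodule.injective_subtype S) _))
  have h3 := finrank_map_add_inf_ker (k := K) Z.mkQ (imS S Z θ hlin)
  rw [Submodule.ker_mkQ, inf_eq_right.2 (le_imS (hlin := hlin)), ← range_barS (hlin := hlin)] at h3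
  rw [h2] at h1
  have h4 : (finrank K (LinearMap.range (barS S Z θ hlin)) : ℚ) + finrank K (kerS S Z θ hlin)
    = finrank K S := by exact_mod_cast h1
  have h5 : (finrank K (LinearMap.range (barS S Z θ hlin)) : ℚ) + finrank K Z
    = finrank K (imS S Z θ hlin) := by exact_mod_cast h3
  linarith

variable {W : ℤ → Submodule k V} {β γ : Submodule K V → ℚ}

lemma Hilb.finite_interU (hW : Hilb W β γ) (Y : Submodule K V) (m : ℤ) :
    Module.Finite k (interU W Y m) := by
  have := hW.fin m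
  exact Submodule.finiteDimensional_of_le (inf_le_left : W m ⊓ Y.restrictScalars k ≤ W m)

/-- dimension inequality in one degree -/
lemma dim_step (hW : Hilb W β γ) (e m : ℤ) (hdeg : ∀ s ∈ S, s ∈ W m → θ s ∈ W (m + e)) :
    (finrank k (interU W S m) : ℚ) - finrank k (interU W (kerS S Z θ hlin) m)
      ≤ finrank k (interU W (imS S Z θ hlin) (m + e)) - finrank k (interU W Z (m + e)) := by
  classical
  have := hW.finite_interU S m
  have := hW.finite_interU (imS S Z θ hlin) (m + e)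
  -- the source
  let ι : S →ₗ[k] V := S.subtype.restrictScalars k
  have hι : Function.Injective ι := Subtype.val_injective
  let A : Submodule k S := (interU W S m).comap ι
  have hA : A.map ι = interU W S m := by
    rw [Submodule.map_comap_eq, inf_eq_right]
    rintro x ⟨_, hx⟩
    exact ⟨⟨x, hx⟩, rfl⟩
  have eA : A ≃ₗ[k] interU W S m :=
    (Submodule.equivMapOfInjective ι hι A).trans (LinearEquiv.ofEq _ _ hA)
  have : Module.Finite k A := Module.Finite.equiv eA.symm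
  let f : S →ₗ[k] (V ⧸ Z) := (barS S Z θ hlin).restrictScalars k
  have h1 := finrank_map_add_inf_ker f A
  have hker : (A ⊓ LinearMap.ker f).map ι = interU W (kerS S Z θ hlin) m := by
    ext x
    constructor
    · rintro ⟨s, ⟨hs1, hs2⟩, rfl⟩
      refine ⟨hs1.1, ?_⟩
      refine ⟨s.2, ?_⟩
      have h : (barS S Z θ hlin) s = 0 := hs2
      rw [barS_apply] at h
      show θ (s : V) ∈ Z
      simpa using h
    · rintro ⟨hx1, hx2⟩
      have hx3 : x ∈ kerS S Z θ hlin := hx2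
      refine ⟨⟨x, hx3.1⟩, ⟨⟨hx1, hx3.1⟩, ?_⟩, rfl⟩
      show (barS S Z θ hlin) _ = 0
      rw [barS_apply]
      simpa using hx3.2
  have e2 : finrank k (A ⊓ LinearMap.ker f : Submodule k S)
      = finrank k (interU W (kerS S Z θ hlin) m) := by
    rw [← hker]
    exact (LinearEquiv.finrank_eq (Submodule.equivMapOfInjective ι hι _))
  -- the target
  have h2 := finrank_map_add_inf_ker (Z.mkQ.restrictScalars k)
    (interU W (imS S Z θ hlin) (m + e))
  have hker2 : (interU W (imS S Z θ hlin) (m + e) ⊓ LinearMap.ker (Z.mkQ.restrictScalars k))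
      = interU W Z (m + e) := by
    ext x
    constructor
    · rintro ⟨⟨hx1, _⟩, hx3⟩
      refine ⟨hx1, ?_⟩
      have h : Z.mkQ x = 0 := hx3
      simpa using h
    · rintro ⟨hx1, hx2⟩
      refine ⟨⟨hx1, le_imS (hlin := hlin) hx2⟩, ?_⟩
      show Z.mkQ x = 0
      simpa using hx2
  rw [hker2] at h2
  have hle : A.map f ≤ (interU W (imS S Z θ hlin) (m + e)).map (Z.mkQ.restrictScalars k) := by
    rintro _ ⟨s, hs, rfl⟩
    exact ⟨θ s, ⟨hdeg s s.2 hs.1, map_mem_imS (hlin := hlin) s.2⟩, rfl⟩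
  have h3 := Submodule.finrank_mono hle
  have e1 : finrank k A = finrank k (interU W S m) := LinearEquiv.finrank_eq eA
  rw [e1, e2] at h1
  have h1' : (finrank k (A.map f) : ℚ) + finrank k (interU W (kerS S Z θ hlin) m)
    = finrank k (interU W S m) := by exact_mod_cast h1
  have h2' : (finrank k ((interU W (imS S Z θ hlin) (m + e)).map (Z.mkQ.restrictScalars k)) : ℚ)
    + finrank k (interU W Z (m + e)) = finrank k (interU W (imS S Z θ hlin) (m + e)) := by
    exact_mod_cast h2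
  have h3' : (finrank k (A.map f) : ℚ) ≤
    finrank k ((interU W (imS S Z θ hlin) (m + e)).map (Z.mkQ.restrictScalars k)) := by
    exact_mod_cast h3
  linarith

/-- the morphism inequality -/
theorem deg_step (hW : Hilb W β γ) (e : ℤ)
    (hdeg : ∀ m, ∀ s ∈ S, s ∈ W m → θ s ∈ W (m + e)) :
    β S - β (kerS S Z θ hlin) ≤ β (imS S Z θ hlin) - β Z
      + e * ((finrank K (imS S Z θ hlin) : ℚ) - finrank K Z) := by
  obtain ⟨m1, h1⟩ := hW.hp S
  obtain ⟨m2, h2⟩ := hW.hp (kerS S Z θ hlin)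
  obtain ⟨m3, h3⟩ := hW.hp (imS S Z θ hlin)
  obtain ⟨m4, h4⟩ := hW.hp Z
  have hr := rank_step hlin
  set r : ℚ := (finrank K (imS S Z θ hlin) : ℚ) - finrank K Z with hrdef
  refine le_of_eventually_quad (r := r) (m₀ := max (max m1 m2) (max m3 m4 - e))
    (c₁ := γ S - γ (kerS S Z θ hlin))
    (c₂ := r / 2 * (e : ℚ) ^ 2 + (β (imS S Z θ hlin) - β Z) * e
      + (γ (imS S Z θ hlin) - γ Z)) ?_
  intro m hm
  have hm1 : m1 ≤ m := le_trans (le_max_left _ _) (le_trans (le_max_left _ _) hm)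
  have hm2 : m2 ≤ m := le_trans (le_max_right _ _) (le_trans (le_max_left _ _) hm)
  have hm' : max m3 m4 ≤ m + e := by
    have := le_trans (le_max_right _ _) hm
    linarith
  have hm3 : m3 ≤ m + e := le_trans (le_max_left _ _) hm'
  have hm4 : m4 ≤ m + e := le_trans (le_max_right _ _) hm'
  have hd := dim_step (hlin := hlin) hW e m (hdeg m)
  rw [h1 m hm1, h2 m hm2, h3 (m + e) hm3, h4 (m + e) hm4] at hd
  push_cast at hd
  have e1 : (finrank K S : ℚ) = r + finrank K (kerS S Z θ hlin) := by linarith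
  have e2 : (finrank K (imS S Z θ hlin) : ℚ) = r + finrank K Z := by linarith
  rw [e1, e2] at hd
  linarith

/-- all quotients of the sub-quotient `[Z, Y]` have slope at least `σ` -/
def QB (β : Submodule K V → ℚ) (Z Y : Submodule K V) (σ : ℚ) : Prop :=
  ∀ X, Z ≤ X → X ≤ Y → ((finrank K Y : ℚ) - finrank K X) * σ ≤ β Y - β X

/-- all subs of the sub-quotient `[Z, Y]` have slope at most `σ` -/
def SB (β : Submodule K V → ℚ) (Z Y : Submodule K V) (σ : ℚ) : Prop :=
  ∀ X, Z ≤ X → X ≤ Y → β X - β Z ≤ ((finrank K X : ℚ) - finrank K Z) * σ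

/-- chain lemma, quotient side -/
theorem QB_step (hW : Hilb W β γ) {S' S Z Y : Submodule K V} {σ : ℚ} {e : ℤ}
    (hS'S : S' ≤ S) (hQ : QB β S' S σ)
    (ops : List (V →+ V))
    (hlin : ∀ θ ∈ ops, ∀ (a : K), ∀ s ∈ S, θ (a • s) - a • θ s ∈ Z)
    (hS' : ∀ θ ∈ ops, ∀ s ∈ S', θ s ∈ Z)
    (hdeg : ∀ θ ∈ ops, ∀ m, ∀ s ∈ S, s ∈ W m → θ s ∈ W (m + e))
    (hY : ∀ θ ∈ ops, ∀ s ∈ S, θ s ∈ Y)
    (hmin : ∀ X : Submodule K V, Z ≤ X → (∀ θ ∈ ops, ∀ s ∈ S, θ s ∈ X) → Y ≤ X) :
    QB β Z Y (σ - e) := by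
  have key : ∀ l : List (V →+ V), (∀ θ ∈ l, θ ∈ ops) → ∀ X : Submodule K V, Z ≤ X → X ≤ Y →
      ∃ X' : Submodule K V, X ≤ X' ∧ X' ≤ Y ∧ (∀ θ ∈ l, ∀ s ∈ S, θ s ∈ X') ∧
        ((finrank K X' : ℚ) - finrank K X) * (σ - e) ≤ β X' - β X := by
    intro l
    induction l with
    | nil =>
      intro _ X _ hXY
      exact ⟨X, le_rfl, hXY, by simp, by simp⟩
    | cons θ l ih =>
      intro hl X hZX hXY
      have hθ : θ ∈ ops := hl θ (by simp)
      have hlin' : ∀ (a : K), ∀ s ∈ S, θ (a • s) - a • θ s ∈ X :=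
        fun a s hs => hZX (hlin θ hθ a s hs)
      have hstep := deg_step (hlin := hlin') hW e (hdeg θ hθ)
      have hrank := rank_step hlin'
      have hker : S' ≤ kerS S X θ hlin' := fun s hs => ⟨hS'S hs, hZX (hS' θ hθ s hs)⟩
      have hq := hQ (kerS S X θ hlin') hker kerS_le
      have hX1 : imS S X θ hlin' ≤ Y := imS_le hXY (hY θ hθ)
      obtain ⟨X', h1, h2, h3, h4⟩ := ih (fun θ' h' => hl θ' (by simp [h']))
        (imS S X θ hlin') (hZX.trans le_imS) hX1
      refine ⟨X', le_imS.trans h1, h2, ?_, ?_⟩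
      · intro θ' hθ' s hs
        rcases List.mem_cons.1 hθ' with rfl | h'
        · exact h1 (map_mem_imS hs)
        · exact h3 θ' h' s hs
      · rw [← hrank] at hq
        linarith
  intro X hZX hXY
  obtain ⟨X', h1, h2, h3, h4⟩ := key ops (fun _ h => h) X hZX hXY
  have : X' = Y := le_antisymm h2 (hmin X' (hZX.trans h1) h3)
  rw [this] at h4
  exact h4

/-- chain lemma, sub side -/
theorem SB_step (hW : Hilb W β γ) {S' S Z Z1 : Submodule K V} {σ : ℚ} {e : ℤ}
    (hQ : SB β Z Z1 σ) (hZZ : Z ≤ Z1)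
    (ops : List (V →+ V))
    (hlin : ∀ θ ∈ ops, ∀ (a : K), ∀ s ∈ S, θ (a • s) - a • θ s ∈ Z)
    (hS' : ∀ θ ∈ ops, ∀ s ∈ S', θ s ∈ Z)
    (hdeg : ∀ θ ∈ ops, ∀ m, ∀ s ∈ S, s ∈ W m → θ s ∈ W (m + e))
    (hZ1 : ∀ θ ∈ ops, ∀ s ∈ S, θ s ∈ Z1)
    (hmax : ∀ s ∈ S, (∀ θ ∈ ops, θ s ∈ Z) → s ∈ S') :
    SB β S' S (σ + e) := by
  have key : ∀ l : List (V →+ V), (∀ θ ∈ l, θ ∈ ops) → ∀ X : Submodule K V, S' ≤ X → X ≤ S →
      ∃ X' : Submodule K V, X' ≤ X ∧ S' ≤ X' ∧ (∀ θ ∈ l, ∀ s ∈ X', θ s ∈ Z) ∧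
        β X - β X' ≤ ((finrank K X : ℚ) - finrank K X') * (σ + e) := by
    intro l
    induction l with
    | nil =>
      intro _ X hSX _
      exact ⟨X, le_rfl, hSX, by simp, by simp⟩
    | cons θ l ih =>
      intro hl X hSX hXS
      have hθ : θ ∈ ops := hl θ (by simp)
      have hlin' : ∀ (a : K), ∀ s ∈ X, θ (a • s) - a • θ s ∈ Z :=
        fun a s hs => hlin θ hθ a s (hXS hs)
      have hstep := deg_step (hlin := hlin') hW e (fun m s hs => hdeg θ hθ m s (hXS hs))
      have hrank := rank_step hlin'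
      have hq := hQ (imS X Z θ hlin') le_imS (imS_le hZZ (fun s hs => hZ1 θ hθ s (hXS hs)))
      have hk : S' ≤ kerS X Z θ hlin' := fun s hs => ⟨hSX hs, hS' θ hθ s hs⟩
      obtain ⟨X', h1, h2, h3, h4⟩ := ih (fun θ' h' => hl θ' (by simp [h']))
        (kerS X Z θ hlin') hk (kerS_le.trans hXS)
      refine ⟨X', h1.trans kerS_le, h2, ?_, ?_⟩
      · intro θ' hθ' s hs
        rcases List.mem_cons.1 hθ' with rfl | h'
        · exact (h1 hs).2
        · exact h3 θ' h' s hs
      · rw [hrank] at hq hstep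
        linarith
  intro X hSX hXS
  obtain ⟨X', h1, h2, h3, h4⟩ := key ops (fun _ h => h) X hSX hXS
  have : X' = S' := le_antisymm
    (fun s hs => hmax s (hXS (h1 hs)) (fun θ hθ => h3 θ hθ s hs)) h2
  rw [this] at h4
  exact h4

end Calc

end Crest.Agent.R169.SL
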