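import Crest.Agent.R169.C.Calc

/-! Row 169, part C: the two slope estimates (C4), (C5) in abstract form. -/

set_option autoImplicit false
set_option linter.unusedSectionVars false

namespace Crest.Agent.R169.SL

open Module Submodule

section Extremal

/-- a function with values in `(1/N)ℤ` bounded above attains its maximum -/
lemma exists_max_of_discrete {α : Type*} [Nonempty α] (f : α → ℚ) (N : ℕ) (hN : 0 < N)
    (hint : ∀ a, ∃ z : ℤ, (N : ℚ) * f a = z) (B : ℚ) (hb : ∀ a, f a ≤ B) :
    ∃ a₀, ∀ a, f a ≤ f a₀ := by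
  classical
  have hN' : (0 : ℚ) < N := by exact_mod_cast hN
  obtain ⟨a⟩ := ‹Nonempty α›
  obtain ⟨z0, hz0⟩ := hint a
  have hbd : ∃ b : ℤ, ∀ z : ℤ, (∃ a, (N : ℚ) * f a = z) → z ≤ b := by
    refine ⟨⌈(N : ℚ) * B⌉, ?_⟩
    rintro z ⟨a, ha⟩
    have h1 : (z : ℚ) ≤ N * B := by
      rw [← ha]
      exact mul_le_mul_of_nonneg_left (hb a) hN'.le
    have h2 : (z : ℚ) ≤ (⌈(N : ℚ) * B⌉ : ℤ) := h1.trans (Int.le_ceil _)
    exact_mod_cast h2
  obtain ⟨z, ⟨a₀, ha₀⟩, hz⟩ := Int.exists_greatest_of_bdd hbd ⟨z0, a, hz0⟩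
  refine ⟨a₀, fun a' => ?_⟩
  obtain ⟨z', hz'⟩ := hint a'
  have h1 := hz z' ⟨a', hz'⟩
  have h2 : (z' : ℚ) ≤ z := by exact_mod_cast h1
  rw [← ha₀, ← hz'] at h2
  exact le_of_mul_le_mul_left h2 hN'

end Extremal

section Chain

variable {k K V : Type} [Field k] [Field K] [Algebra k K] [AddCommGroup V] [Module k V]
  [Module K V] [IsScalarTower k K V] [Module.Finite K V]
variable {W : ℤ → Submodule k V} {β γ : Submodule K V → ℚ}

lemma two_b_int {k V : Type} [Field k] [AddCommGroup V] [Module k V]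
    {E : ℤ → Submodule k V} {n : ℕ} {b c : ℚ} (h : HasHP E n b c) : ∃ z : ℤ, 2 * b = z := by
  obtain ⟨m₀, h⟩ := h
  have h1 := h m₀ le_rfl
  have h2 := h (m₀ + 1) (by linarith)
  refine ⟨2 * ((finrank k (E (m₀ + 1)) : ℤ) - finrank k (E m₀)) - 2 * n * m₀ - n, ?_⟩
  push_cast at h2 ⊢
  linarith

lemma Hilb.two_int (hW : Hilb W β γ) (Y : Submodule K V) : ∃ z : ℤ, 2 * β Y = z :=
  two_b_int (hW.hp Y)

lemma Hilb.bot (hW : Hilb W β γ) : β ⊥ = 0 := by
  obtain ⟨m₀, h⟩ := hW.hp ⊥
  have h0 : ∀ m, (finrank k (interU W (⊥ : Submodule K V) m) : ℚ) = 0 := by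
    intro m
    have : interU W (⊥ : Submodule K V) m = ⊥ := by
      simp [interU]
    rw [this]
    simp
  have h1 := h m₀ le_rfl
  have h2 := h (m₀ + 1) (by linarith)
  rw [h0, finrank_bot] at h1 h2
  push_cast at h2 h1
  linarith

/-- the subspace of maximal slope -/
lemma Hilb.exists_max (hW : Hilb W β γ) (B : ℚ) (hB : ∀ Y, β Y ≤ B)
    (hV : 0 < finrank K V) :
    ∃ (S : Submodule K V) (σ : ℚ), 0 < finrank K S ∧ β S = finrank K S * σ ∧
      ∀ Y : Submodule K V, β Y ≤ finrank K Y * σ := by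
  classical
  let α := {S : Submodule K V // 0 < finrank K S}
  have : Nonempty α := ⟨⟨⊤, by rw [finrank_top]; exact hV⟩⟩
  let n := finrank K V
  have hdvd : ∀ a : α, ∃ c : ℕ, (n.factorial : ℚ) = finrank K a.1 * c := by
    intro a
    obtain ⟨c, hc⟩ := Nat.dvd_factorial a.2 (Submodule.finrank_le a.1)
    exact ⟨c, by exact_mod_cast hc⟩
  obtain ⟨a₀, ha₀⟩ := exists_max_of_discrete (fun a : α => β a.1 / finrank K a.1)
    (2 * n.factorial) (by positivity) (by
      intro a
      obtain ⟨c, hc⟩ := hdvd a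
      obtain ⟨z, hz⟩ := hW.two_int a.1
      have hpos : (0 : ℚ) < finrank K a.1 := by exact_mod_cast a.2
      refine ⟨z * c, ?_⟩
      push_cast
      rw [hc, ← hz]
      field_simp) |B| (by
      intro a
      have hpos : (1 : ℚ) ≤ finrank K a.1 := by exact_mod_cast a.2
      rw [div_le_iff₀ (by linarith)]
      have h1 := hB a.1
      have h2 := le_abs_self B
      have h3 := abs_nonneg B
      nlinarith)
  refine ⟨a₀.1, β a₀.1 / finrank K a₀.1, a₀.2, ?_, ?_⟩
  · have hpos : (0 : ℚ) < finrank K a₀.1 := by exact_mod_cast a₀.2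
    field_simp
  · intro Y
    rcases Nat.eq_zero_or_pos (finrank K Y) with h0 | hpos
    · have : Y = ⊥ := Submodule.finrank_eq_zero.1 h0
      rw [this, hW.bot]
      simp
    · have h := ha₀ ⟨Y, hpos⟩
      have hpos' : (0 : ℚ) < finrank K Y := by exact_mod_cast hpos
      simp only at h
      rw [div_le_iff₀ hpos'] at h
      linarith

/-- the quotient of minimal slope -/
lemma Hilb.exists_min (hW : Hilb W β γ) (B : ℚ) (hB : ∀ Y, β Y ≤ B)
    (hV : 0 < finrank K V) :
    ∃ (S : Submodule K V) (σ : ℚ), finrank K S < finrank K V ∧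
      β ⊤ - β S = ((finrank K V : ℚ) - finrank K S) * σ ∧
      ∀ Y : Submodule K V, ((finrank K V : ℚ) - finrank K Y) * σ ≤ β ⊤ - β Y := by
  classical
  let α := {S : Submodule K V // finrank K S < finrank K V}
  have : Nonempty α := ⟨⟨⊥, by rw [finrank_bot]; exact hV⟩⟩
  let n := finrank K V
  have hdvd : ∀ a : α, ∃ c : ℕ, (n.factorial : ℚ) = ((finrank K V : ℚ) - finrank K a.1) * c := by
    intro a
    obtain ⟨c, hc⟩ := Nat.dvd_factorial (Nat.sub_pos_of_lt a.2) (Nat.sub_le _ (finrank K a.1))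
    refine ⟨c, ?_⟩
    rw [← Nat.cast_sub a.2.le]
    exact_mod_cast hc
  obtain ⟨a₀, ha₀⟩ := exists_max_of_discrete
    (fun a : α => -((β ⊤ - β a.1) / ((finrank K V : ℚ) - finrank K a.1)))
    (2 * n.factorial) (by positivity) (by
      intro a
      obtain ⟨c, hc⟩ := hdvd a
      obtain ⟨z, hz⟩ := hW.two_int a.1
      obtain ⟨z', hz'⟩ := hW.two_int ⊤
      have hpos : (0 : ℚ) < (finrank K V : ℚ) - finrank K a.1 := by
        have : (finrank K a.1 : ℚ) < finrank K V := by exact_mod_cast a.2
        linarith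
      refine ⟨(z - z') * c, ?_⟩
      push_cast
      rw [hc, ← hz, ← hz']
      field_simp
      ring) (|B| + |β ⊤|) (by
      intro a
      have hpos : (1 : ℚ) ≤ (finrank K V : ℚ) - finrank K a.1 := by
        have : (finrank K a.1 : ℚ) + 1 ≤ finrank K V := by exact_mod_cast a.2
        linarith
      rw [← neg_div, div_le_iff₀ (by linarith)]
      have h1 := hB a.1
      have h2 := le_abs_self B
      have h3 := abs_nonneg B
      have h4 := neg_abs_le (β (⊤ : Submodule K V))
      have h5 := abs_nonneg (β (⊤ : Submodule K V))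
      nlinarith)
  have hpos₀ : (0 : ℚ) < (finrank K V : ℚ) - finrank K a₀.1 := by
    have : (finrank K a₀.1 : ℚ) < finrank K V := by exact_mod_cast a₀.2
    linarith
  refine ⟨a₀.1, (β ⊤ - β a₀.1) / ((finrank K V : ℚ) - finrank K a₀.1), a₀.2, ?_, ?_⟩
  · field_simp
  · intro Y
    rcases (Submodule.finrank_le Y).lt_or_eq with hlt | heq
    · have h := ha₀ ⟨Y, hlt⟩
      have hpos' : (0 : ℚ) < (finrank K V : ℚ) - finrank K Y := by
        have : (finrank K Y : ℚ) < finrank K V := by exact_mod_cast hlt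
        linarith
      simp only at h
      rw [neg_le_neg_iff, le_div_iff₀ hpos'] at h
      linarith
    · have : Y = ⊤ := Submodule.eq_top_of_finrank_eq heq
      rw [this, finrank_top]
      simp

variable {Q : Type} [Field Q] [Algebra K Q] [Module Q V] [IsScalarTower K Q V]
  [Module.Finite Q V]

/-- multiplication by an element of `Q` as an additive map -/
def smulHom (V : Type) {Q : Type} [Field Q] [AddCommGroup V] [Module Q V] (q : Q) : V →+ V where
  toFun x := q • x
  map_zero' := smul_zero q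
  map_add' := smul_add q

@[simp] lemma smulHom_apply (q : Q) (x : V) : smulHom V q x = q • x := rfl

/-- `X` contains all `t • s`, `t` in a `K`-spanning set of `Q`, hence `q • s` for all `q`. -/
lemma smul_mem_of_span {ts : Finset Q} (hts : Submodule.span K (ts : Set Q) = ⊤)
    (X : Submodule K V) (s : V) (h : ∀ t ∈ ts, t • s ∈ X) (q : Q) : q • s ∈ X := by
  have hq : q ∈ Submodule.span K (ts : Set Q) := by rw [hts]; trivial
  induction hq using Submodule.span_induction with
  | mem x hx => exact h x hx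
  | zero => rw [zero_smul]; exact X.zero_mem
  | add x y _ _ hx hy => rw [add_smul]; exact X.add_mem hx hy
  | smul a x _ hx => rw [smul_assoc]; exact X.smul_mem a hx

/-- the first step of (C4) -/
lemma QB_span (hW : Hilb W β γ) {ts : Finset Q} (hts : Submodule.span K (ts : Set Q) = ⊤)
    {c1 : ℤ} (hdt : ∀ t ∈ ts, ∀ m, ∀ w ∈ W m, t • w ∈ W (m + c1)) {S : Submodule K V} {σ : ℚ}
    (hQ : QB β ⊥ S σ) :
    QB β ⊥ ((Submodule.span Q (S : Set V)).restrictScalars K) (σ - c1) := by
  refine QB_step hW (S' := ⊥) (S := S) (Z := ⊥) bot_le hQ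
    (ts.toList.map (fun t => smulHom V t)) ?_ ?_ ?_ ?_ ?_
  · intro θ hθ a s _
    obtain ⟨t, _, rfl⟩ := List.mem_map.1 hθ
    simp only [smulHom_apply]
    rw [smul_comm, sub_self]
    exact Submodule.zero_mem _
  · intro θ hθ s hs
    rw [(Submodule.mem_bot K).1 hs, map_zero]
    exact Submodule.zero_mem _
  · intro θ hθ m s _ hs
    obtain ⟨t, ht, rfl⟩ := List.mem_map.1 hθ
    exact hdt t (Finset.mem_toList.1 ht) m s hs
  · intro θ hθ s hs
    obtain ⟨t, ht, rfl⟩ := List.mem_map.1 hθ
    exact Submodule.smul_mem _ t (Submodule.subset_span hs)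
  · intro X _ hX x hx
    have hx' : x ∈ Submodule.span Q (S : Set V) := hx
    have key : ∀ q : Q, q • x ∈ X := by
      induction hx' using Submodule.span_induction with
      | mem y hy =>
        intro q
        refine smul_mem_of_span hts X y (fun t ht => ?_) q
        exact hX (smulHom V t) (List.mem_map.2 ⟨t, Finset.mem_toList.2 ht, rfl⟩) y hy
      | zero => intro q; rw [smul_zero]; exact X.zero_mem
      | add y z hy' hz' hy hz =>
        intro q; rw [smul_add]; exact X.add_mem (hy hy' q) (hz hz' q)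
      | smul a y hy' hy => intro q; rw [smul_smul]; exact hy hy' (q * a)
    simpa using key 1

/-- the largest `Q`-subspace of a `K`-subspace -/
def coreQ (Q : Type) {K V : Type} [Field K] [Field Q] [Algebra K Q] [AddCommGroup V] [Module K V]
    [Module Q V] [IsScalarTower K Q V] (S : Submodule K V) : Submodule Q V where
  carrier := {w | ∀ q : Q, q • w ∈ S}
  zero_mem' := by intro q; rw [smul_zero]; exact S.zero_mem
  add_mem' := by intro a b ha hb q; rw [smul_add]; exact S.add_mem (ha q) (hb q)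
  smul_mem' := by intro c x hx q; rw [smul_smul]; exact hx _

lemma mem_coreQ {S : Submodule K V} {w : V} : w ∈ coreQ Q S ↔ ∀ q : Q, q • w ∈ S := Iff.rfl

/-- the first step of (C5) -/
lemma SB_core (hW : Hilb W β γ) {ts : Finset Q} (hts : Submodule.span K (ts : Set Q) = ⊤)
    {c1 : ℤ} (hdt : ∀ t ∈ ts, ∀ m, ∀ w ∈ W m, t • w ∈ W (m + c1)) {S : Submodule K V} {σ : ℚ}
    (hQ : SB β S ⊤ σ) :
    SB β ((coreQ Q S).restrictScalars K) ⊤ (σ + c1) := by
  refine SB_step hW (S' := (coreQ Q S).restrictScalars K) (S := ⊤) (Z := S) (Z1 := ⊤) hQ le_top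
    (ts.toList.map (fun t => smulHom V t)) ?_ ?_ ?_ ?_ ?_
  · intro θ hθ a s _
    obtain ⟨t, _, rfl⟩ := List.mem_map.1 hθ
    simp only [smulHom_apply]
    rw [smul_comm, sub_self]
    exact Submodule.zero_mem _
  · intro θ hθ s hs
    obtain ⟨t, _, rfl⟩ := List.mem_map.1 hθ
    exact hs t
  · intro θ hθ m s _ hs
    obtain ⟨t, ht, rfl⟩ := List.mem_map.1 hθ
    exact hdt t (Finset.mem_toList.1 ht) m s hs
  · intro θ _ s _
    trivial
  · intro s _ hs q
    refine smul_mem_of_span hts S s (fun t ht => ?_) q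
    exact hs (smulHom V t) (List.mem_map.2 ⟨t, Finset.mem_toList.2 ht, rfl⟩)

variable (D : Fin 2 → (V →+ V)) (d : Fin 2 → (Q →+ Q))

/-- `U + D_0 U + D_1 U` -/
def nextU (U : Submodule Q V) : Submodule Q V :=
  U ⊔ Submodule.span Q {x | ∃ j, ∃ w ∈ U, x = D j w}

/-- `{w ∈ U | D_0 w, D_1 w ∈ U}` -/
def prevU (hleib : ∀ j (q : Q) (w : V), D j (q • w) = q • D j w + d j q • w)
    (U : Submodule Q V) : Submodule Q V where
  carrier := {w | w ∈ U ∧ ∀ j, D j w ∈ U}
  zero_mem' := ⟨U.zero_mem, fun j => by rw [map_zero]; exact U.zero_mem⟩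
  add_mem' := by
    rintro a b ⟨ha, ha'⟩ ⟨hb, hb'⟩
    exact ⟨U.add_mem ha hb, fun j => by rw [map_add]; exact U.add_mem (ha' j) (hb' j)⟩
  smul_mem' := by
    rintro q x ⟨hx, hx'⟩
    refine ⟨U.smul_mem _ hx, fun j => ?_⟩
    rw [hleib]
    exact U.add_mem (U.smul_mem _ (hx' j)) (U.smul_mem _ hx)

variable {D d}

lemma le_nextU (U : Submodule Q V) : U ≤ nextU D U := le_sup_left

lemma D_mem_nextU {U : Submodule Q V} {w : V} (hw : w ∈ U) (j : Fin 2) : D j w ∈ nextU D U :=
  (le_sup_right : _ ≤ nextU D U) (Submodule.subset_span ⟨j, w, hw, rfl⟩)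

variable (hleib : ∀ j (q : Q) (w : V), D j (q • w) = q • D j w + d j q • w)

include hleib in
/-- the derivation step of (C4) -/
lemma QB_next (hW : Hilb W β γ) {c0 : ℤ} (hdD : ∀ j m, ∀ w ∈ W m, D j w ∈ W (m + c0))
    {S' : Submodule K V} {U : Submodule Q V} {σ : ℚ} (hS' : S' ≤ U.restrictScalars K)
    (hDS' : ∀ j, ∀ s ∈ S', D j s ∈ U)
    (hQ : QB β S' (U.restrictScalars K) σ) :
    QB β (U.restrictScalars K) ((nextU D U).restrictScalars K) (σ - c0) := by
  refine QB_step hW (S' := S') (S := U.restrictScalars K) (Z := U.restrictScalars K) hS' hQ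
    [D 0, D 1] ?_ ?_ ?_ ?_ ?_
  · intro θ hθ a s hs
    have hs' : s ∈ U := hs
    obtain ⟨j, rfl⟩ : ∃ j, θ = D j := by
      simp only [List.mem_cons, List.not_mem_nil, or_false] at hθ
      rcases hθ with rfl | rfl
      exacts [⟨0, rfl⟩, ⟨1, rfl⟩]
    have h1 : D j (a • s) - a • D j s = d j (algebraMap K Q a) • s := by
      rw [← algebraMap_smul Q a s, hleib, algebraMap_smul, add_sub_cancel_left]
    rw [h1]
    exact U.smul_mem _ hs'
  · intro θ hθ s hs
    obtain ⟨j, rfl⟩ : ∃ j, θ = D j := by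
      simp only [List.mem_cons, List.not_mem_nil, or_false] at hθ
      rcases hθ with rfl | rfl
      exacts [⟨0, rfl⟩, ⟨1, rfl⟩]
    exact hDS' j s hs
  · intro θ hθ m s _ hs
    obtain ⟨j, rfl⟩ : ∃ j, θ = D j := by
      simp only [List.mem_cons, List.not_mem_nil, or_false] at hθ
      rcases hθ with rfl | rfl
      exacts [⟨0, rfl⟩, ⟨1, rfl⟩]
    exact hdD j m s hs
  · intro θ hθ s hs
    obtain ⟨j, rfl⟩ : ∃ j, θ = D j := by
      simp only [List.mem_cons, List.not_mem_nil, or_false] at hθ
      rcases hθ with rfl | rfl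
      exacts [⟨0, rfl⟩, ⟨1, rfl⟩]
    exact D_mem_nextU (U := U) hs j
  · intro X hUX hX
    have hD : ∀ j, ∀ w ∈ U, D j w ∈ X := by
      intro j w hw
      refine hX (D j) ?_ w hw
      fin_cases j <;> simp
    have key : ∀ x ∈ Submodule.span Q {x | ∃ j, ∃ w ∈ U, x = D j w}, ∀ q : Q, q • x ∈ X := by
      intro x hx
      induction hx using Submodule.span_induction with
      | mem y hy =>
        intro q
        obtain ⟨j, w, hw, rfl⟩ := hy
        have h1 := hD j (q • w) (U.smul_mem q hw)
        rw [hleib] at h1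
        have h2 : d j q • w ∈ X := hUX (U.smul_mem _ hw)
        have h3 := X.sub_mem h1 h2
        rwa [add_sub_cancel_right] at h3
      | zero => intro q; rw [smul_zero]; exact X.zero_mem
      | add y z _ _ hy hz => intro q; rw [smul_add]; exact X.add_mem (hy q) (hz q)
      | smul a y _ hy => intro q; rw [smul_smul]; exact hy (q * a)
    intro x hx
    have hx' : x ∈ nextU D U := hx
    obtain ⟨y, hy, z, hz, rfl⟩ := Submodule.mem_sup.1 hx'
    exact X.add_mem (hUX hy) (by simpa using key z hz 1)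

/-- the derivation step of (C5) -/
lemma SB_prev (hW : Hilb W β γ) {c0 : ℤ} (hdD : ∀ j m, ∀ w ∈ W m, D j w ∈ W (m + c0))
    {Z1 : Submodule K V} {U : Submodule Q V} {σ : ℚ} (hZ1 : U.restrictScalars K ≤ Z1)
    (hDZ1 : ∀ j, ∀ s ∈ U, D j s ∈ Z1)
    (hQ : SB β (U.restrictScalars K) Z1 σ) :
    SB β ((prevU D d hleib U).restrictScalars K) (U.restrictScalars K) (σ + c0) := by
  refine SB_step hW (S' := (prevU D d hleib U).restrictScalars K) (S := U.restrictScalars K)
    (Z := U.restrictScalars K) (Z1 := Z1) hQ hZ1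
    [D 0, D 1] ?_ ?_ ?_ ?_ ?_
  · intro θ hθ a s hs
    have hs' : s ∈ U := hs
    obtain ⟨j, rfl⟩ : ∃ j, θ = D j := by
      simp only [List.mem_cons, List.not_mem_nil, or_false] at hθ
      rcases hθ with rfl | rfl
      exacts [⟨0, rfl⟩, ⟨1, rfl⟩]
    have h1 : D j (a • s) - a • D j s = d j (algebraMap K Q a) • s := by
      rw [← algebraMap_smul Q a s, hleib, algebraMap_smul, add_sub_cancel_left]
    rw [h1]
    exact U.smul_mem _ hs'
  · intro θ hθ s hs
    obtain ⟨j, rfl⟩ : ∃ j, θ = D j := by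
      simp only [List.mem_cons, List.not_mem_nil, or_false] at hθ
      rcases hθ with rfl | rfl
      exacts [⟨0, rfl⟩, ⟨1, rfl⟩]
    have hs' : s ∈ prevU D d hleib U := hs
    exact hs'.2 j
  · intro θ hθ m s _ hs
    obtain ⟨j, rfl⟩ : ∃ j, θ = D j := by
      simp only [List.mem_cons, List.not_mem_nil, or_false] at hθ
      rcases hθ with rfl | rfl
      exacts [⟨0, rfl⟩, ⟨1, rfl⟩]
    exact hdD j m s hs
  · intro θ hθ s hs
    obtain ⟨j, rfl⟩ : ∃ j, θ = D j := by
      simp only [List.mem_cons, List.not_mem_nil, or_false] at hθ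
      rcases hθ with rfl | rfl
      exacts [⟨0, rfl⟩, ⟨1, rfl⟩]
    exact hDZ1 j s hs
  · intro s hs h
    refine ⟨hs, fun j => ?_⟩
    refine h (D j) ?_
    fin_cases j <;> simp

/-- the increasing chain -/
def upChain (D : Fin 2 → (V →+ V)) (U0 : Submodule Q V) : ℕ → Submodule Q V
  | 0 => U0
  | j + 1 => nextU D (upChain D U0 j)

/-- the decreasing chain -/
def downChain (hleib : ∀ j (q : Q) (w : V), D j (q • w) = q • D j w + d j q • w)
    (U0 : Submodule Q V) : ℕ → Submodule Q V
  | 0 => U0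
  | j + 1 => prevU D d hleib (downChain hleib U0 j)

lemma finrank_restrict_le {U U' : Submodule Q V} (h : U ≤ U') :
    (finrank K (U.restrictScalars K) : ℚ) ≤ finrank K (U'.restrictScalars K) := by
  have h' : U.restrictScalars K ≤ U'.restrictScalars K := h
  exact_mod_cast Submodule.finrank_mono h'

include hleib in
/-- (C4), abstract form. -/
theorem C4_abs (hW : Hilb W β γ) (B : ℚ) (hB : ∀ Y, β Y ≤ B)
    {ts : Finset Q} (hts : Submodule.span K (ts : Set Q) = ⊤)
    {c1 c0 : ℕ} (hdt : ∀ t ∈ ts, ∀ m, ∀ w ∈ W m, t • w ∈ W (m + c1))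
    (hdD : ∀ j m, ∀ w ∈ W m, D j w ∈ W (m + c0)) {τ : ℚ}
    (hτ : ∀ U : Submodule Q V, (∀ j, ∀ w ∈ U, D j w ∈ U) →
      β (U.restrictScalars K) ≤ finrank K (U.restrictScalars K) * τ) (Y : Submodule K V) :
    β Y ≤ finrank K Y * (τ + ((finrank Q V : ℚ) - 1) * c0 + c1) := by
  rcases Nat.eq_zero_or_pos (finrank K V) with h0 | hpos
  · have hY : Y = ⊥ := by
      apply Submodule.finrank_eq_zero.1
      exact Nat.le_zero.1 (h0 ▸ Submodule.finrank_le Y)
    rw [hY, hW.bot]
    simp
  obtain ⟨S, σ, hS, hσ, hmax⟩ := hW.exists_max B hB hpos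
  -- it suffices to bound σ
  suffices hfin : σ ≤ τ + ((finrank Q V : ℚ) - 1) * c0 + c1 by
    have h1 := hmax Y
    have h2 : (0 : ℚ) ≤ finrank K Y := by positivity
    nlinarith
  have hQ0 : QB β ⊥ S σ := by
    intro X _ _
    rw [hσ]
    have := hmax X
    linarith
  set U := upChain D (Submodule.span Q (S : Set V)) with hU
  have hQ1 : QB β ⊥ ((U 0).restrictScalars K) (σ - c1) := QB_span hW hts hdt hQ0
  have hQB : ∀ j, QB β ((U j).restrictScalars K) ((U (j + 1)).restrictScalars K)
      (σ - c1 - (j + 1) * c0) := by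
    intro j
    induction j with
    | zero =>
      have := QB_next hleib hW (c0 := c0) hdD (S' := ⊥) (U := U 0) bot_le (by
        intro j s hs
        rw [(Submodule.mem_bot K).1 hs, map_zero]
        exact Submodule.zero_mem _) hQ1
      simp only [Int.cast_natCast] at this
      have e : (σ - c1 - (((0 : ℕ) : ℚ) + 1) * c0 : ℚ) = σ - c1 - c0 := by push_cast; ring
      rw [e]
      exact this
    | succ j ih =>
      have := QB_next hleib hW (c0 := c0) hdD (S' := (U j).restrictScalars K) (U := U (j + 1))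
        (le_nextU (D := D) (U j)) (by
        intro i s hs
        exact D_mem_nextU (U := U j) hs i) ih
      simp only [Int.cast_natCast] at this
      have e : (σ - c1 - (((j + 1 : ℕ) : ℚ) + 1) * c0 : ℚ) = σ - c1 - ((j : ℚ) + 1) * c0 - c0 := by
        push_cast; ring
      rw [e]
      exact this
  have hmono : ∀ j, U j ≤ U (j + 1) := fun j => le_nextU (D := D) (U j)
  have hsum : ∀ j : ℕ, (finrank K ((U j).restrictScalars K) : ℚ) * (σ - c1 - j * c0)
      ≤ β ((U j).restrictScalars K) := by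
    intro j
    induction j with
    | zero =>
      have h := hQ1 ⊥ le_rfl bot_le
      rw [hW.bot, finrank_bot] at h
      simp only [Nat.cast_zero, sub_zero, zero_mul] at h ⊢
      exact h
    | succ j ih =>
      have h := hQB j ((U j).restrictScalars K) le_rfl (hmono j)
      have hle := finrank_restrict_le (K := K) (hmono j)
      have h0 : (0 : ℚ) ≤ finrank K ((U j).restrictScalars K) := by positivity
      have hc0 : (0 : ℚ) ≤ c0 := by positivity
      have := mul_nonneg h0 hc0
      push_cast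
      nlinarith
  -- stabilisation
  have hU0 : 0 < finrank Q (U 0) := by
    obtain ⟨x, hx, hx0⟩ : ∃ x ∈ S, x ≠ 0 := by
      by_contra hcon
      push Not at hcon
      have : S = ⊥ := (Submodule.eq_bot_iff S).2 hcon
      rw [this, finrank_bot] at hS
      exact lt_irrefl _ hS
    refine Nat.pos_of_ne_zero (fun h => ?_)
    have h1 := Submodule.finrank_eq_zero.1 h
    have h2 : x ∈ U 0 := Submodule.subset_span hx
    rw [h1] at h2
    exact hx0 ((Submodule.mem_bot Q).1 h2)
  obtain ⟨J, hJR, hJ⟩ : ∃ J, J + 1 ≤ finrank Q V ∧ U (J + 1) = U J := by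
    by_contra hcon
    push Not at hcon
    have : ∀ j, j ≤ finrank Q V → j + 1 ≤ finrank Q (U j) := by
      intro j
      induction j with
      | zero => intro _; exact hU0
      | succ j ih =>
        intro hj
        have h1 := ih (by omega)
        have h2 : U j < U (j + 1) := lt_of_le_of_ne (hmono j) (Ne.symm (hcon j hj))
        have h3 := Submodule.finrank_lt_finrank_of_lt h2
        omega
    have h1 := this _ le_rfl
    have h2 := Submodule.finrank_le (U (finrank Q V))
    omega
  have hst : ∀ j, ∀ w ∈ U J, D j w ∈ U J := by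
    intro j w hw
    rw [← hJ]
    exact D_mem_nextU (U := U J) hw j
  have h1 := hτ (U J) hst
  have h2 := hsum J
  have hmono' : ∀ j, U 0 ≤ U j := by
    intro j
    induction j with
    | zero => exact le_rfl
    | succ j ih => exact ih.trans (hmono j)
  have hpos2 : 0 < finrank K ((U J).restrictScalars K) := by
    have h3 : S ≤ (U J).restrictScalars K := by
      intro x hx
      exact hmono' J (Submodule.subset_span hx)
    exact lt_of_lt_of_le hS (Submodule.finrank_mono h3)
  have hpos3 : (0 : ℚ) < finrank K ((U J).restrictScalars K) := by exact_mod_cast hpos2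
  have h4 : σ - c1 - J * c0 ≤ τ := le_of_mul_le_mul_left (h2.trans h1) hpos3
  have h5 : (J : ℚ) + 1 ≤ finrank Q V := by exact_mod_cast hJR
  have h6 : (0 : ℚ) ≤ c0 := by positivity
  nlinarith

/-- (C5), abstract form. -/
theorem C5_abs (hW : Hilb W β γ) (B : ℚ) (hB : ∀ Y, β Y ≤ B)
    {ts : Finset Q} (hts : Submodule.span K (ts : Set Q) = ⊤)
    {c1 c0 : ℕ} (hdt : ∀ t ∈ ts, ∀ m, ∀ w ∈ W m, t • w ∈ W (m + c1))
    (hdD : ∀ j m, ∀ w ∈ W m, D j w ∈ W (m + c0)) {τ : ℚ}
    (hτ : ∀ U : Submodule Q V, (∀ j, ∀ w ∈ U, D j w ∈ U) →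
      ((finrank K V : ℚ) - finrank K (U.restrictScalars K)) * τ ≤ β ⊤ - β (U.restrictScalars K))
    (hleib : ∀ j (q : Q) (w : V), D j (q • w) = q • D j w + d j q • w)
    (Y : Submodule K V) :
    ((finrank K V : ℚ) - finrank K Y) * (τ - ((finrank Q V : ℚ) - 1) * c0 - c1) ≤ β ⊤ - β Y := by
  rcases Nat.eq_zero_or_pos (finrank K V) with h0 | hpos
  · have hY : Y = ⊥ := by
      apply Submodule.finrank_eq_zero.1
      exact Nat.le_zero.1 (h0 ▸ Submodule.finrank_le Y)
    have hT : (⊤ : Submodule K V) = ⊥ := by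
      apply Submodule.finrank_eq_zero.1
      exact Nat.le_zero.1 (h0 ▸ Submodule.finrank_le _)
    rw [hT, hY, hW.bot, finrank_bot, h0]
    simp
  obtain ⟨S, σ, hS, hσ, hmin⟩ := hW.exists_min B hB hpos
  suffices hfin : τ - ((finrank Q V : ℚ) - 1) * c0 - c1 ≤ σ by
    have h1 := hmin Y
    have h2 : (0 : ℚ) ≤ (finrank K V : ℚ) - finrank K Y := by
      have := Submodule.finrank_le Y
      have : (finrank K Y : ℚ) ≤ finrank K V := by exact_mod_cast this
      linarith
    nlinarith
  have hS0 : SB β S ⊤ σ := by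
    intro X _ _
    have := hmin X
    linarith
  set U := downChain hleib (coreQ Q S) with hU
  have hS1 : SB β ((U 0).restrictScalars K) ⊤ (σ + c1) := SB_core hW hts hdt hS0
  have hSB : ∀ j, SB β ((U (j + 1)).restrictScalars K) ((U j).restrictScalars K)
      (σ + c1 + (j + 1) * c0) := by
    intro j
    induction j with
    | zero =>
      have := SB_prev hleib hW (c0 := c0) hdD (Z1 := ⊤) (U := U 0) le_top (by
        intro j s hs
        trivial) hS1
      simp only [Int.cast_natCast] at this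
      have e : (σ + c1 + (((0 : ℕ) : ℚ) + 1) * c0 : ℚ) = σ + c1 + c0 := by push_cast; ring
      rw [e]
      exact this
    | succ j ih =>
      have := SB_prev hleib hW (c0 := c0) hdD (Z1 := (U j).restrictScalars K) (U := U (j + 1))
        (fun s hs => (show s ∈ prevU D d hleib (U j) from hs).1) (by
        intro i s hs
        exact (show s ∈ prevU D d hleib (U j) from hs).2 i) ih
      simp only [Int.cast_natCast] at this
      have e : (σ + c1 + (((j + 1 : ℕ) : ℚ) + 1) * c0 : ℚ) = σ + c1 + ((j : ℚ) + 1) * c0 + c0 := by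
        push_cast; ring
      rw [e]
      exact this
  have hanti : ∀ j, U (j + 1) ≤ U j :=
    fun j s hs => (show s ∈ prevU D d hleib (U j) from hs).1
  have hn : ∀ j : ℕ, (0 : ℚ) ≤ (finrank K V : ℚ) - finrank K ((U j).restrictScalars K) := by
    intro j
    have := Submodule.finrank_le ((U j).restrictScalars K)
    have : (finrank K ((U j).restrictScalars K) : ℚ) ≤ finrank K V := by exact_mod_cast this
    linarith
  have hsum : ∀ j : ℕ, β ⊤ - β ((U j).restrictScalars K) ≤
      ((finrank K V : ℚ) - finrank K ((U j).restrictScalars K)) * (σ + c1 + j * c0) := by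
    intro j
    induction j with
    | zero =>
      have h := hS1 ⊤ le_top le_rfl
      rw [finrank_top] at h
      simpa using h
    | succ j ih =>
      have h := hSB j ((U j).restrictScalars K) (hanti j) le_rfl
      have hle := finrank_restrict_le (K := K) (hanti j)
      have h0 := hn j
      have hc0 : (0 : ℚ) ≤ c0 := by positivity
      have := mul_nonneg h0 hc0
      push_cast
      nlinarith
  -- stabilisation
  have hU0 : finrank Q (U 0) < finrank Q V := by
    rcases (Submodule.finrank_le (U 0)).lt_or_eq with h | h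
    · exact h
    · exfalso
      have h1 : U 0 = ⊤ := Submodule.eq_top_of_finrank_eq h
      have h2 : S = ⊤ := by
        rw [eq_top_iff]
        intro x _
        have h3 : x ∈ U 0 := by rw [h1]; trivial
        have h4 : ∀ q : Q, q • x ∈ S := h3
        simpa using h4 1
      rw [h2, finrank_top] at hS
      exact lt_irrefl _ hS
  obtain ⟨J, hJR, hJ⟩ : ∃ J, J + 1 ≤ finrank Q V ∧ U (J + 1) = U J := by
    by_contra hcon
    push Not at hcon
    have : ∀ j, j ≤ finrank Q V → finrank Q (U j) + j + 1 ≤ finrank Q V := by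
      intro j
      induction j with
      | zero => intro _; exact hU0
      | succ j ih =>
        intro hj
        have h1 := ih (by omega)
        have h2 : U (j + 1) < U j := lt_of_le_of_ne (hanti j) (hcon j hj)
        have h3 := Submodule.finrank_lt_finrank_of_lt h2
        omega
    have h1 := this _ le_rfl
    omega
  have hst : ∀ j, ∀ w ∈ U J, D j w ∈ U J := by
    intro j w hw
    rw [← hJ] at hw
    exact (show w ∈ prevU D d hleib (U J) from hw).2 j
  have h1 := hτ (U J) hst
  have h2 := hsum J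
  have hanti' : ∀ j, U j ≤ U 0 := by
    intro j
    induction j with
    | zero => exact le_rfl
    | succ j ih => exact (hanti j).trans ih
  have hpos2 : finrank K ((U J).restrictScalars K) < finrank K V := by
    refine lt_of_le_of_lt (Submodule.finrank_mono ?_) hS
    intro x hx
    have h4 : ∀ q : Q, q • x ∈ S := hanti' J hx
    simpa using h4 1
  have hpos3 : (0 : ℚ) < (finrank K V : ℚ) - finrank K ((U J).restrictScalars K) := by
    have : (finrank K ((U J).restrictScalars K) : ℚ) < finrank K V := by exact_mod_cast hpos2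
    linarith
  have h4 : τ ≤ σ + c1 + J * c0 := le_of_mul_le_mul_left (h1.trans h2) hpos3
  have h5 : (J : ℚ) + 1 ≤ finrank Q V := by exact_mod_cast hJR
  have h6 : (0 : ℚ) ≤ c0 := by positivity
  nlinarith

end Chain

end Crest.Agent.R169.SL
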