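import Crest.Agent.R169.C.P15

/-!
Row 169, Part C (helper461): final statement `partC`.
-/

set_option autoImplicit false

namespace Crest.Agent.R169

theorem partC {k Q : Type} [Field k] [IsAlgClosed k] [Field Q] [Algebra k Q] (D : TData k Q)
    (p : ℕ) [Fact p.Prime] [CharP k p] {N : ℕ} {bT cT : ℚ} (hT : HilbT D N bT cT) {c0 c1 : ℕ}
    (X : DerData D p c0 c1) (h3 : C3 D p N bT) : UpperBound D p N c0 c1 := by
  haveI : Infinite k := IsAlgClosed.instInfinite
  haveI : CharP Q p := charP_of_injective_algebraMap (algebraMap k Q).injective p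
  exact PC.upperBound_of X hT.pos h3 (SL.c4Stmt_of X (PC.p1KStmt D)) (SL.c5Stmt_of X (PC.p1KStmt D))
    (PC.p1Stmt D) (PC.p5Stmt D)

end Crest.Agent.R169
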