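import Crest.Agent.R169.C.SlopeEnd
import Crest.Agent.R169.LatStmts

/-!
Row 169, Part C (helper461): the inputs P1, P5 in the form needed by C4, C5, C6.
-/

set_option autoImplicit false
set_option linter.unusedSectionVars false

namespace Crest.Agent.R169.PC

variable {k Q : Type} [Field k] [Field Q] [Algebra k Q]

theorem isLat_K0 (D : TData k Q) {R : ℕ} {E : ℤ → Submodule k (Fin R → Q)}
    (hE : IsLat D.u D.v E) : IsLat (u0 D) (v0 D) E :=
  IsLat.restrict (L := D.K0) (Q := Q) (V := Fin R → Q) (u := u0 D) (v := v0 D) hE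

theorem p1Stmt [Infinite k] (D : TData k Q) : P1Stmt D := by
  intro R G hG V'
  have h1 : IsLat D.u D.v (interU G V') := IsLat.interU hG.lat V'
  obtain ⟨b, c, h, _⟩ := IsLat.exists_hasHP (K := D.K0) D.isRat (isLat_K0 D h1)
  exact ⟨_, b, c, h⟩

theorem p1KStmt [Infinite k] (D : TData k Q) : SL.P1KStmt D := by
  intro R E hE Y
  have h1 : IsLat (u0 D) (v0 D) (interU E Y) := IsLat.interU (isLat_K0 D hE) Y
  obtain ⟨b, c, h, _⟩ := IsLat.exists_hasHP (K := D.K0) D.isRat h1
  exact ⟨b, c, h⟩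

theorem p5Stmt [IsAlgClosed k] (D : TData k Q) : P5Stmt D := by
  intro R E hE n b c hHP hn s₁ s₂ h₁ h₂
  exact jinv_le (K := D.K0) D.isRat (isLat_K0 D hE) hHP hn s₁ s₂ h₁ h₂

end Crest.Agent.R169.PC
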