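import Crest.Agent.R169.C.SlopeEnd
import Crest.Agent.R169.Hilb

/-! Row 169, part C: (C4), (C5) unconditional (P1 from helper132's `Hilb.lean`). -/

set_option autoImplicit false

namespace Crest.Agent.R169.SL

open Module Crest.Agent.R169.PC

variable {k Q : Type} [Field k] [Field Q] [Algebra k Q]

theorem p1KStmt [Infinite k] (D : TData k Q) : P1KStmt D := by
  intro R E hE Y
  have hE' := IsLat.restrict (L := D.K0) (Q := Q) (V := Fin R → Q)
    (u := (⟨D.u, IntermediateField.subset_adjoin _ _ (by simp)⟩ : D.K0))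
    (v := (⟨D.v, IntermediateField.subset_adjoin _ _ (by simp)⟩ : D.K0)) hE
  obtain ⟨b, c, h, _⟩ := (hE'.interU Y).exists_hasHP D.isRat
  exact ⟨b, c, h⟩

theorem c4Stmt [Infinite k] {D : TData k Q} {p c0 c1 : ℕ} (X : DerData D p c0 c1) : C4Stmt X :=
  c4Stmt_of X (p1KStmt D)

theorem c5Stmt [Infinite k] {D : TData k Q} {p c0 c1 : ℕ} (X : DerData D p c0 c1) : C5Stmt X :=
  c5Stmt_of X (p1KStmt D)

end Crest.Agent.R169.SL
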