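import Crest.Agent.R169.C.Frob

/-!
Row 169, Part C (helper461): the slope hypothesis (H) for derivation-stable subspaces of the
Frobenius pull-back, `K₀`-span of `F_{c₁}`, assembly C6 from C4, C5, P5.
-/

set_option autoImplicit false
set_option linter.unusedSectionVars false

namespace Crest.Agent.R169.PC

section HP

variable {k V : Type} [Field k] [AddCommGroup V] [Module k V]

/-- A quadratic polynomial vanishing at all large integers vanishes. -/
theorem quad_eq_zero {a b c : ℚ} {m₀ : ℤ} (h : ∀ m ≥ m₀, a * (m : ℚ) ^ 2 + b * m + c = 0) :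
    a = 0 ∧ b = 0 ∧ c = 0 := by
  have h0 := h m₀ le_rfl
  have h1 := h (m₀ + 1) (by omega)
  have h2 := h (m₀ + 2) (by omega)
  push_cast at h1 h2
  have ha : a = 0 := by linarith
  subst ha
  have hb : b = 0 := by linarith
  subst hb
  exact ⟨rfl, rfl, by linarith⟩

theorem hasHP_unique {E : ℤ → Submodule k V} {n n' : ℕ} {b b' c c' : ℚ}
    (h : HasHP E n b c) (h' : HasHP E n' b' c') : n = n' ∧ b = b' ∧ c = c' := by
  obtain ⟨m0, hm0⟩ := h
  obtain ⟨m1, hm1⟩ := h'
  have key : ∀ m ≥ max m0 m1, ((n : ℚ) / 2 - n' / 2) * (m : ℚ) ^ 2 + (b - b') * m + (c - c') = 0 := by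
    intro m hm
    have e0 := hm0 m (le_trans (le_max_left _ _) hm)
    have e1 := hm1 m (le_trans (le_max_right _ _) hm)
    linarith
  obtain ⟨ha, hb, hc⟩ := quad_eq_zero key
  refine ⟨?_, by linarith, by linarith⟩
  have : (n : ℚ) = n' := by linarith
  exact_mod_cast this

end HP

section hypH

variable {k Q : Type} [Field k] [Field Q] [Algebra k Q]
variable {D : TData k Q} {p R c0 c1 : ℕ} [Fact p.Prime] [CharP Q p]
  {G : ℤ → Submodule k (Fin R → Q)}

theorem interU_top {V K : Type} [Field K] [Algebra k K] [AddCommGroup V] [Module k V]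
    [Module K V] [IsScalarTower k K V] (E : ℤ → Submodule k V) :
    interU E (⊤ : Submodule K V) = E := by
  funext m
  simp [interU]

theorem frobSub_top : frobSub p (⊤ : Submodule Q (Fin R → Q)) = ⊤ := by
  rw [eq_top_iff]
  intro v _
  have h2 : ∀ r, (Pi.single r (1 : Q) : Fin R → Q) ∈
      frobSub p (⊤ : Submodule Q (Fin R → Q)) := by
    intro r
    refine Submodule.subset_span ⟨Pi.single r (1 : Q), trivial, ?_⟩
    funext r'
    rw [phi_apply]
    by_cases h : r' = r
    · subst h; simp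
    · simp [h, (Fact.out : p.Prime).ne_zero]
  have : v = ∑ r, v r • (Pi.single r (1 : Q) : Fin R → Q) := by
    funext r'
    simp [Finset.sum_apply, Pi.single_apply]
  rw [this]
  exact Submodule.sum_mem _ fun r _ => Submodule.smul_mem _ _ (h2 r)

/-- the slope of `W` -/
theorem C3_slope {N : ℕ} {bT : ℚ} (hC3 : C3 D p N bT) (hG : IsTLat D G) {n : ℕ} {b c : ℚ}
    (hn : HasHP G n b c) {nW : ℕ} {bW cW : ℚ} (hW : HasHP (frobPull D p G) nW bW cW) :
    nW = n ∧ bW = n * (bT / N) + p * (b - n * (bT / N)) := by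
  have h1 : HasHP (interU G (⊤ : Submodule Q (Fin R → Q))) n b c := by rwa [interU_top]
  obtain ⟨c', hc'⟩ := hC3 R G hG ⊤ n b c h1
  rw [frobSub_top, interU_top] at hc'
  obtain ⟨h2, h3, _⟩ := hasHP_unique hW hc'
  exact ⟨h2, h3⟩

/-- **(H)** slope hypothesis for derivation-stable subspaces of `W`. -/
theorem hypH (X : DerData D p c0 c1) {N : ℕ} {bT : ℚ} (hC3 : C3 D p N bT) (hG : IsTLat D G)
    {n : ℕ} {b c : ℚ} (hn : HasHP G n b c) (hNSS : NSS (Q := Q) G n b)
    (hP1 : ∀ V' : Submodule Q (Fin R → Q), ∃ (n₁ : ℕ) (b₁ c₁ : ℚ), HasHP (interU G V') n₁ b₁ c₁)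
    {bW cW : ℚ} (hW : HasHP (frobPull D p G) n bW cW)
    (U : Submodule Q (Fin R → Q)) (hU : DStable X U) (n₁ : ℕ) (b₁ c₁ : ℚ)
    (h₁ : HasHP (interU (frobPull D p G) U) n₁ b₁ c₁) :
    b₁ * n - n₁ * bW ≤ (p / 2 : ℚ) * n₁ * (n - n₁) := by
  have hUeq : U = frobSub p (frobComap p U) := dstable_eq_frobSub X U hU
  obtain ⟨n', b', c', h'⟩ := hP1 (frobComap p U)
  obtain ⟨c'', h''⟩ := hC3 R G hG (frobComap p U) n' b' c' h'
  rw [← hUeq] at h''
  obtain ⟨rfl, rfl, _⟩ := hasHP_unique h₁ h''
  obtain ⟨_, rfl⟩ := C3_slope hC3 hG hn hW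
  have h3 := hNSS (frobComap p U) n₁ b' c' h'
  have hp : (0 : ℚ) ≤ p := by positivity
  have h4 := mul_le_mul_of_nonneg_left h3 hp
  calc ((n₁ : ℚ) * (bT / N) + p * (b' - n₁ * (bT / N))) * n
        - n₁ * (n * (bT / N) + p * (b - n * (bT / N)))
      = p * (b' * n - n₁ * b) := by ring
    _ ≤ p * (n₁ * (n - n₁) / 2) := h4
    _ = (p / 2 : ℚ) * n₁ * (n - n₁) := by ring

end hypH

section spanK0

variable {k Q : Type} [Field k] [Field Q] [Algebra k Q] (D : TData k Q)

/-- `u` as an element of `K₀` -/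
def u0 : D.K0 := ⟨D.u, IntermediateField.subset_adjoin _ _ (by simp)⟩

/-- `v` as an element of `K₀` -/
def v0 : D.K0 := ⟨D.v, IntermediateField.subset_adjoin _ _ (by simp)⟩

/-- If `F (m+1) = F m + u F m + v F m` for `m ≥ c₁` then `F c₁` spans `Q` over `K₀`. -/
theorem spanK0_F (c1 : ℕ) (hgen : ∀ m : ℤ, (c1 : ℤ) ≤ m → ∀ e ∈ D.F (m + 1), ∃ a ∈ D.F m,
    ∃ b ∈ D.F m, ∃ c ∈ D.F m, e = a + D.u * b + D.v * c) :
    Submodule.span D.K0 (D.F c1 : Set Q) = ⊤ := by
  set S := Submodule.span D.K0 (D.F c1 : Set Q) with hS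
  -- every `F m` lies in `S`
  have h1 : ∀ n : ℕ, ∀ f ∈ D.F (c1 + n), f ∈ S := by
    intro n
    induction n with
    | zero => intro f hf; exact Submodule.subset_span (by simpa using hf)
    | succ n ih =>
      intro f hf
      have hf' : f ∈ D.F ((c1 + n : ℤ) + 1) := by
        push_cast at hf
        rwa [← add_assoc] at hf
      obtain ⟨a, ha, b, hb, c, hc, rfl⟩ := hgen _ (by omega) f hf'
      refine S.add_mem (S.add_mem (ih a ha) ?_) ?_
      · exact S.smul_mem (u0 D) (ih b hb)
      · exact S.smul_mem (v0 D) (ih c hc)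
  have h2 : ∀ m : ℤ, ∀ f ∈ D.F m, f ∈ S := by
    intro m f hf
    refine h1 (m - c1).toNat f (D.F_mono ?_ hf)
    have := Int.self_le_toNat (m - c1)
    omega
  -- `S` is closed under multiplication
  have h3 : ∀ a ∈ S, ∀ b ∈ S, a * b ∈ S := by
    intro a ha b hb
    induction ha using Submodule.span_induction with
    | mem a ha =>
      induction hb using Submodule.span_induction with
      | mem b hb => exact h2 _ _ (D.mul_mem _ _ a ha b hb)
      | zero => rw [mul_zero]; exact S.zero_mem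
      | add x y _ _ hx hy => rw [mul_add]; exact S.add_mem hx hy
      | smul c x _ hx => rw [mul_smul_comm]; exact S.smul_mem _ hx
    | zero => rw [zero_mul]; exact S.zero_mem
    | add x y _ _ hx hy => rw [add_mul]; exact S.add_mem hx hy
    | smul c x _ hx => rw [smul_mul_assoc]; exact S.smul_mem _ hx
  have hone : (1 : Q) ∈ S := h2 0 1 D.one_mem_zero
  -- finite dimensional over `K0`
  have hfin : Module.Finite D.K0 S := by
    have := D.lat.fin c1
    obtain ⟨s, hs⟩ := (Submodule.fg_iff_finiteDimensional (D.F c1)).2 this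
    have : S = Submodule.span D.K0 (s : Set Q) := by
      apply le_antisymm
      · refine Submodule.span_le.2 ?_
        intro f hf
        rw [SetLike.mem_coe, ← hs] at hf
        have h4 : Submodule.span k (s : Set Q)
            ≤ (Submodule.span D.K0 (s : Set Q)).restrictScalars k :=
          Submodule.span_le.2 Submodule.subset_span
        exact h4 hf
      · refine Submodule.span_mono ?_
        intro f hf
        rw [SetLike.mem_coe, ← hs]
        exact Submodule.subset_span hf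
    rw [this]
    infer_instance
  -- inverses
  let A : Subalgebra D.K0 Q :=
    { carrier := S
      mul_mem' := fun {a b} ha hb => h3 a ha b hb
      add_mem' := fun {a b} ha hb => S.add_mem ha hb
      algebraMap_mem' := fun r => by
        rw [Algebra.algebraMap_eq_smul_one]
        exact S.smul_mem r hone }
  have hAfin : Module.Finite D.K0 A := hfin
  have hinv : ∀ a ∈ S, a⁻¹ ∈ S := by
    intro a ha
    have : Algebra.IsAlgebraic D.K0 A := Algebra.IsAlgebraic.of_finite D.K0 A
    have h5 : IsAlgebraic D.K0 (⟨a, ha⟩ : A) := Algebra.IsAlgebraic.isAlgebraic _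
    exact A.inv_mem_of_algebraic (x := ⟨a, ha⟩) (h5.algHom A.val)
  rw [eq_top_iff]
  intro q _
  obtain ⟨m, f, hf, g, hg, hg0, hq⟩ := D.frac q
  have : q = f * g⁻¹ := by
    rw [← hq, mul_assoc, mul_inv_cancel₀ hg0, mul_one]
  rw [this]
  exact h3 _ (h2 m f hf) _ (hinv _ (h2 m g hg))

end spanK0

end Crest.Agent.R169.PC
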