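import Crest.Agent.R169.C.Chain
import Crest.Agent.R169.C.Assemble
import Crest.Agent.R169.Bridge

/-! Row 169, part C: (C4), (C5) in the frozen form. -/

set_option autoImplicit false
set_option linter.unusedSectionVars false

namespace Crest.Agent.R169.SL

open Module Submodule Crest.Agent.R169.PC

section Bdd

variable {k K V : Type} [Field k] [Field K] [Algebra k K] [AddCommGroup V] [Module k V]
  [Module K V] [IsScalarTower k K V] [Module.Finite K V]
variable {W : ℤ → Submodule k V} {β γ : Submodule K V → ℚ}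

/-- complementary subspaces -/
lemma Hilb.add_le (hW : Hilb W β γ) {Y C : Submodule K V} (h : IsCompl Y C) :
    β Y + β C ≤ β ⊤ := by
  obtain ⟨m1, h1⟩ := hW.hp Y
  obtain ⟨m2, h2⟩ := hW.hp C
  obtain ⟨m3, h3⟩ := hW.hp ⊤
  have hr := Submodule.finrank_add_eq_of_isCompl h
  have hr' : (finrank K Y : ℚ) + finrank K C = finrank K V := by exact_mod_cast hr
  refine le_of_eventually_quad (r := finrank K V) (m₀ := max (max m1 m2) m3)
    (c₁ := γ Y + γ C) (c₂ := γ ⊤) ?_
  intro m hm
  have hm1 : m1 ≤ m := le_trans (le_max_left _ _) (le_trans (le_max_left _ _) hm)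
  have hm2 : m2 ≤ m := le_trans (le_max_right _ _) (le_trans (le_max_left _ _) hm)
  have hm3 : m3 ≤ m := le_trans (le_max_right _ _) hm
  have e1 := h1 m hm1
  have e2 := h2 m hm2
  have e3 := h3 m hm3
  have := hW.finite_interU Y m
  have := hW.finite_interU C m
  have := hW.finite_interU ⊤ m
  have hdis : interU W Y m ⊓ interU W C m = ⊥ := by
    rw [eq_bot_iff]
    rintro x ⟨⟨_, hx⟩, ⟨_, hx'⟩⟩
    have : x ∈ Y ⊓ C := ⟨hx, hx'⟩
    rw [h.inf_eq_bot] at this
    exact this
  have hle : interU W Y m ⊔ interU W C m ≤ interU W (⊤ : Submodule K V) m := by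
    refine sup_le ?_ ?_
    · rintro x ⟨hx, _⟩; exact ⟨hx, trivial⟩
    · rintro x ⟨hx, _⟩; exact ⟨hx, trivial⟩
  have h4 := Submodule.finrank_sup_add_finrank_inf_eq (interU W Y m) (interU W C m)
  rw [hdis, finrank_bot, add_zero] at h4
  have h5 := Submodule.finrank_mono hle
  rw [h4] at h5
  have h6 : (finrank k (interU W Y m) : ℚ) + finrank k (interU W C m)
    ≤ finrank k (interU W (⊤ : Submodule K V) m) := by exact_mod_cast h5
  rw [e1, e2, e3, finrank_top] at h6
  nlinarith [h6, hr']

/-- every subspace has a complement spanned by part of a given basis -/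
lemma exists_compl_of_basis {ι : Type*} [Fintype ι] (b : Basis ι K V) (Y : Submodule K V) :
    ∃ I : Finset ι, IsCompl Y (Submodule.span K (b '' (I : Set ι))) := by
  classical
  obtain ⟨I, hI⟩ : ∃ I : Set ι, Maximal (fun I : Set ι =>
      Disjoint Y (Submodule.span K (b '' I))) I := by
    have hfin : {I : Set ι | Disjoint Y (Submodule.span K (b '' I))}.Finite := Set.toFinite _
    exact hfin.exists_maximal ⟨∅, by simp⟩
  refine ⟨I.toFinset, ?_⟩
  rw [Set.coe_toFinset]
  refine ⟨hI.1, ?_⟩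
  rw [codisjoint_iff, eq_top_iff, ← b.span_eq, Submodule.span_le]
  rintro _ ⟨i, rfl⟩
  by_contra hi
  have hnot : i ∉ I := by
    intro h
    exact hi ((le_sup_right : _ ≤ Y ⊔ Submodule.span K (b '' I))
      (Submodule.subset_span ⟨i, h, rfl⟩))
  have hbig : Disjoint Y (Submodule.span K (b '' (insert i I))) := by
    rw [Set.image_insert_eq, Submodule.disjoint_def]
    intro x hxY hx
    rw [Submodule.mem_span_insert] at hx
    obtain ⟨a, z, hz, rfl⟩ := hx
    by_cases ha : a = 0
    · subst ha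
      rw [zero_smul, zero_add] at hxY ⊢
      exact (Submodule.disjoint_def.1 hI.1) z hxY hz
    · exfalso
      apply hi
      have h1 : b i = a⁻¹ • ((a • b i + z) - z) := by
        rw [add_sub_cancel_right, smul_smul, inv_mul_cancel₀ ha, one_smul]
      rw [SetLike.mem_coe, h1]
      refine Submodule.smul_mem _ _ (Submodule.sub_mem _ ?_ ?_)
      · exact (le_sup_left : Y ≤ _) hxY
      · exact (le_sup_right : _ ≤ Y ⊔ Submodule.span K (b '' I)) hz
  have := hI.2 hbig (Set.subset_insert i I)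
  exact hnot (this (Set.mem_insert i I))

/-- the linear coefficients are bounded above -/
lemma Hilb.bdd (hW : Hilb W β γ) : ∃ B, ∀ Y, β Y ≤ B := by
  classical
  let b := Module.finBasis K V
  refine ⟨∑ I : Finset (Fin (finrank K V)), |β ⊤ - β (Submodule.span K (b '' (I : Set _)))|, ?_⟩
  intro Y
  obtain ⟨I, hI⟩ := exists_compl_of_basis b Y
  have h1 := hW.add_le hI
  have h2 : |β ⊤ - β (Submodule.span K (b '' (I : Set _)))| ≤
      ∑ I : Finset (Fin (finrank K V)), |β ⊤ - β (Submodule.span K (b '' (I : Set _)))| :=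
    Finset.single_le_sum (f := fun I : Finset (Fin (finrank K V)) =>
      |β ⊤ - β (Submodule.span K (b '' (I : Set _)))|) (fun _ _ => abs_nonneg _)
      (Finset.mem_univ I)
  have h3 := le_abs_self (β ⊤ - β (Submodule.span K (b '' (I : Set (Fin (finrank K V))))))
  linarith

end Bdd

section Span

variable {k K V : Type} [Field k] [Field K] [Algebra k K] [AddCommGroup V] [Module k V]
  [Module K V] [IsScalarTower k K V] {u v : K} {W : ℤ → Submodule k V}

lemma lat_mono_of_le (hW : IsLat u v W) {i j : ℤ} (h : i ≤ j) : W i ≤ W j := by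
  obtain ⟨n, rfl⟩ := Int.le.dest h
  clear h
  induction n with
  | zero => simp
  | succ n ih =>
    refine ih.trans ?_
    have := hW.mono (i + n)
    push_cast
    rwa [← add_assoc]

/-- multiplication by polynomials in `u, v` -/
lemma lat_poly_smul (hW : IsLat u v W) {a : K} (ha : a ∈ Algebra.adjoin k ({u, v} : Set K)) :
    ∃ d : ℕ, ∀ m, ∀ w ∈ W m, a • w ∈ W (m + d) := by
  induction ha using Algebra.adjoin_induction with
  | mem x hx =>
    refine ⟨1, fun m w hw => ?_⟩
    rcases hx with rfl | hx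
    · exact hW.umul m w hw
    · rw [Set.mem_singleton_iff] at hx
      subst hx
      exact hW.vmul m w hw
  | algebraMap r =>
    refine ⟨0, fun m w hw => ?_⟩
    rw [algebraMap_smul]
    simpa using (W m).smul_mem r hw
  | add x y _ _ hx hy =>
    obtain ⟨d, hd⟩ := hx
    obtain ⟨e, he⟩ := hy
    refine ⟨d + e, fun m w hw => ?_⟩
    rw [add_smul]
    exact (W _).add_mem (lat_mono_of_le hW (by push_cast; linarith) (hd m w hw))
      (lat_mono_of_le hW (by push_cast; linarith) (he m w hw))
  | mul x y _ _ hx hy =>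
    obtain ⟨d, hd⟩ := hx
    obtain ⟨e, he⟩ := hy
    refine ⟨e + d, fun m w hw => ?_⟩
    rw [mul_smul]
    have := hd _ _ (he m w hw)
    push_cast
    rwa [← add_assoc]

/-- clearing denominators -/
lemma lat_clear (hK : IsRat k u v) (hW : IsLat u v W) {x : V} (hx : x ∈ spanK K W) :
    ∃ h ∈ Algebra.adjoin k ({u, v} : Set K), h ≠ 0 ∧ ∃ m, h • x ∈ W m := by
  unfold spanK at hx
  induction hx using Submodule.span_induction with
  | mem x hx =>
    obtain ⟨m, hm⟩ := Set.mem_iUnion.1 hx
    exact ⟨1, Subalgebra.one_mem _, one_ne_zero, m, by simpa using hm⟩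
  | zero => exact ⟨1, Subalgebra.one_mem _, one_ne_zero, 0, by simp⟩
  | add x y _ _ hx hy =>
    obtain ⟨h, hh, hh0, m, hm⟩ := hx
    obtain ⟨g, hg, hg0, n, hn⟩ := hy
    obtain ⟨d, hd⟩ := lat_poly_smul hW hg
    obtain ⟨e, he⟩ := lat_poly_smul hW hh
    refine ⟨g * h, Subalgebra.mul_mem _ hg hh, mul_ne_zero hg0 hh0, max (m + d) (n + e), ?_⟩
    rw [smul_add]
    refine (W _).add_mem (lat_mono_of_le hW (le_max_left _ _) ?_)
      (lat_mono_of_le hW (le_max_right _ _) ?_)
    · rw [mul_smul]; exact hd m _ hm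
    · rw [mul_comm, mul_smul]; exact he n _ hn
  | smul a x _ hx =>
    obtain ⟨h, hh, hh0, m, hm⟩ := hx
    have ha : a ∈ IntermediateField.adjoin k ({u, v} : Set K) := by rw [hK.top]; trivial
    rw [IntermediateField.mem_adjoin_iff_div] at ha
    obtain ⟨r, hr, s, hs, rfl⟩ := ha
    by_cases hs0 : s = 0
    · subst hs0
      exact ⟨1, Subalgebra.one_mem _, one_ne_zero, 0, by simp⟩
    · obtain ⟨d, hd⟩ := lat_poly_smul hW hr
      refine ⟨s * h, Subalgebra.mul_mem _ hs hh, mul_ne_zero hs0 hh0, m + d, ?_⟩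
      have : (s * h) • (r / s) • x = r • (h • x) := by
        rw [smul_smul, smul_smul]
        congr 1
        field_simp
      rw [this]
      exact hd m _ hm

/-- the span of an intersection -/
lemma spanK_interU (hK : IsRat k u v) (hW : IsLat u v W) (Y : Submodule K V)
    (hY : Y ≤ spanK K W) : spanK K (interU W Y) = Y := by
  apply le_antisymm
  · unfold spanK
    rw [Submodule.span_le]
    intro x hx
    obtain ⟨m, hm⟩ := Set.mem_iUnion.1 hx
    exact hm.2
  · intro x hx
    obtain ⟨h, hh, hh0, m, hm⟩ := lat_clear hK hW (hY hx)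
    have h1 : h • x ∈ spanK K (interU W Y) :=
      Submodule.subset_span (Set.mem_iUnion.2 ⟨m, hm, Y.smul_mem h hx⟩)
    have h2 := (spanK K (interU W Y)).smul_mem h⁻¹ h1
    rwa [smul_smul, inv_mul_cancel₀ hh0, one_smul] at h2

end Span

section TSpan

variable {k Q : Type} [Field k] [Field Q] [Algebra k Q] {D : TData k Q} {R : ℕ}
  {G : ℤ → Submodule k (Fin R → Q)}

/-- a `T`-lattice spans over `K0` -/
lemma tlat_spanK0 {c1 : ℕ} (hspan : Submodule.span D.K0 (D.F c1 : Set Q) = ⊤)
    (hG : IsTLat D G) : spanK D.K0 G = ⊤ := by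
  -- the `K0`-span is stable under `Q`
  have hact : ∀ q : Q, ∀ x ∈ spanK D.K0 G, q • x ∈ spanK D.K0 G := by
    intro q x hx
    have hq : q ∈ Submodule.span D.K0 (D.F c1 : Set Q) := by rw [hspan]; trivial
    induction hq using Submodule.span_induction with
    | mem f hf =>
      unfold spanK at hx ⊢
      induction hx using Submodule.span_induction with
      | mem y hy =>
        obtain ⟨m, hm⟩ := Set.mem_iUnion.1 hy
        exact Submodule.subset_span (Set.mem_iUnion.2 ⟨_, hG.act c1 m f hf y hm⟩)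
      | zero => rw [smul_zero]; exact Submodule.zero_mem _
      | add y z _ _ hy hz => rw [smul_add]; exact Submodule.add_mem _ hy hz
      | smul a y _ hy => rw [smul_comm]; exact Submodule.smul_mem _ a hy
    | zero => rw [zero_smul]; exact Submodule.zero_mem _
    | add f g _ _ hf hg => rw [add_smul]; exact Submodule.add_mem _ hf hg
    | smul a f _ hf => rw [smul_assoc]; exact Submodule.smul_mem _ a hf
  rw [eq_top_iff]
  intro x _
  have hx : x ∈ spanK Q G := by rw [hG.full]; trivial
  unfold spanK at hx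
  induction hx using Submodule.span_induction with
  | mem y hy => exact Submodule.subset_span hy
  | zero => exact Submodule.zero_mem _
  | add y z _ _ hy hz => exact Submodule.add_mem _ (hy trivial) (hz trivial)
  | smul a y _ hy => exact hact a _ (hy trivial)

/-- P1 over `K₀` for families in `Q^R` (owner of the proof: helper132) -/
def P1KStmt (D : TData k Q) : Prop :=
  ∀ (R : ℕ) (E : ℤ → Submodule k (Fin R → Q)), IsLat D.u D.v E →
    ∀ Y : Submodule D.K0 (Fin R → Q), ∃ b c : ℚ,
      HasHP (interU E Y) (rk D.K0 (interU E Y)) b c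

/-- `T`-lattices are `Hilb` families -/
lemma tlat_hilb {c1 : ℕ} (hspan : Submodule.span D.K0 (D.F c1 : Set Q) = ⊤)
    (hP : P1KStmt D) (hG : IsTLat D G) :
    ∃ β γ : Submodule D.K0 (Fin R → Q) → ℚ, Hilb G β γ := by
  choose β γ h using hP R G hG.lat
  refine ⟨β, γ, hG.lat.fin, fun Y => ?_⟩
  have h1 := h Y
  have h2 : rk D.K0 (interU G Y) = finrank D.K0 Y := by
    unfold rk
    rw [spanK_interU D.isRat (hG.lat' (D := D)) Y]
    rw [tlat_spanK0 hspan hG]
    exact le_top
  rwa [h2] at h1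

lemma finite_of_span {c1 : ℕ} (hspan : Submodule.span D.K0 (D.F c1 : Set Q) = ⊤) :
    ∃ ts : Finset Q, (∀ t ∈ ts, t ∈ D.F c1) ∧ Submodule.span D.K0 (ts : Set Q) = ⊤ := by
  have := D.lat.fin c1
  obtain ⟨s, hs⟩ := (Submodule.fg_iff_finiteDimensional (D.F c1)).2 this
  refine ⟨s, fun t ht => ?_, ?_⟩
  · rw [← hs]; exact Submodule.subset_span ht
  · rw [← hspan]
    apply le_antisymm
    · refine Submodule.span_mono ?_
      intro f hf
      rw [SetLike.mem_coe, ← hs]
      exact Submodule.subset_span hf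
    · refine Submodule.span_le.2 ?_
      intro f hf
      rw [SetLike.mem_coe, ← hs] at hf
      have h4 : Submodule.span k (s : Set Q)
          ≤ (Submodule.span D.K0 (s : Set Q)).restrictScalars k :=
        Submodule.span_le.2 Submodule.subset_span
      exact h4 hf

/-- coordinatewise derivation as an additive map -/
def vecD {p c0 c1 : ℕ} (X : DerData D p c0 c1) (R : ℕ) (j : Fin 2) :
    (Fin R → Q) →+ (Fin R → Q) where
  toFun w := fun i => X.d j (w i)
  map_zero' := by funext i; simp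
  map_add' a b := by funext i; simp

/-- the derivation as an additive map -/
def addD {p c0 c1 : ℕ} (X : DerData D p c0 c1) (j : Fin 2) : Q →+ Q where
  toFun q := X.d j q
  map_zero' := by simp
  map_add' a b := by simp

lemma vecD_leib {p c0 c1 : ℕ} (X : DerData D p c0 c1) (j : Fin 2) (q : Q) (w : Fin R → Q) :
    vecD X R j (q • w) = q • vecD X R j w + addD X j q • w := by
  funext i
  simp only [vecD, addD, AddMonoidHom.coe_mk, ZeroHom.coe_mk, Pi.smul_apply, Pi.add_apply,
    smul_eq_mul, Derivation.leibniz]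
  ring

lemma interU_restrict (W : ℤ → Submodule k (Fin R → Q)) (U : Submodule Q (Fin R → Q)) :
    interU W (U.restrictScalars D.K0) = interU W U := by
  funext m
  rfl

lemma slope_aux1 {bU n r b p : ℚ} (hn0 : 0 < n) (hr0 : 0 ≤ r) (hp0 : 0 ≤ p)
    (hs : bU * n - r * b ≤ p / 2 * r * (n - r)) : bU ≤ r * (b / n + p / 2) := by
  have h1 : bU * n ≤ (r * (b / n + p / 2)) * n := by
    have e : r * (b / n + p / 2) * n = r * b + (p / 2 : ℚ) * r * n := by
      field_simp
    rw [e]
    nlinarith [mul_nonneg (mul_nonneg hp0 hr0) hr0]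
  exact le_of_mul_le_mul_right h1 hn0

lemma slope_aux2 {bU n r b p : ℚ} (hn0 : 0 < n) (hr : r ≤ n) (hp0 : 0 ≤ p)
    (hs : bU * n - r * b ≤ p / 2 * r * (n - r)) : (n - r) * (b / n - p / 2) ≤ b - bU := by
  have h1 : ((n - r) * (b / n - p / 2)) * n ≤ (b - bU) * n := by
    have e : (n - r) * (b / n - p / 2) * n = (n - r) * b - (p / 2 : ℚ) * (n - r) * n := by
      field_simp
    rw [e]
    nlinarith [mul_nonneg (mul_nonneg hp0 (sub_nonneg.2 hr)) (sub_nonneg.2 hr)]
  exact le_of_mul_le_mul_right h1 hn0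

lemma slope_aux3 {bY n r b p s : ℚ} (hn0 : 0 < n) (h : bY ≤ r * (b / n + p / 2 + s)) :
    bY * n - r * b ≤ (p / 2 + s) * r * n := by
  have h2 := mul_le_mul_of_nonneg_right h hn0.le
  have e : r * (b / n + p / 2 + s) * n = r * b + (p / 2 + s) * r * n := by
    field_simp
    ring
  rw [e] at h2
  linarith

lemma slope_aux4 {bY n r b p s : ℚ} (hn0 : 0 < n) (h : (n - r) * (b / n - p / 2 - s) ≤ b - bY) :
    bY * n - r * b ≤ (p / 2 + s) * (n - r) * n := by
  have h2 := mul_le_mul_of_nonneg_right h hn0.le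
  have e : (n - r) * (b / n - p / 2 - s) * n = (n - r) * b - (p / 2 + s) * (n - r) * n := by
    field_simp
    ring
  rw [e] at h2
  linarith

variable {p c0 c1 : ℕ} {X : DerData D p c0 c1} {W : ℤ → Submodule k (Fin R → Q)}

lemma finite_Q {c1 : ℕ} (hspan : Submodule.span D.K0 (D.F c1 : Set Q) = ⊤) :
    Module.Finite D.K0 Q := by
  obtain ⟨ts, _, hts⟩ := finite_of_span hspan
  exact ⟨⟨ts, hts⟩⟩

/-- (C4) in the frozen form, modulo P1. -/
theorem c4Stmt_of (X : DerData D p c0 c1) (hP : P1KStmt D) : C4Stmt X := by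
  intro R W n b hR hC Y n₁ b₁ c₁ h₁
  have hspan : Submodule.span D.K0 (D.F c1 : Set Q) = ⊤ := spanK0_F D c1 X.gen
  have := finite_Q hspan
  obtain ⟨β, γ, hW⟩ := tlat_hilb hspan hP hC.tlat
  obtain ⟨B, hB⟩ := hW.bdd
  obtain ⟨ts, hts1, hts2⟩ := finite_of_span hspan
  obtain ⟨c, hc⟩ := hC.hp
  have htop := hW.hp ⊤
  rw [interU_top, finrank_top] at htop
  obtain ⟨hn, hb, _⟩ := hasHP_unique hc htop
  obtain ⟨hn₁, hb₁, _⟩ := hasHP_unique h₁ (hW.hp Y)
  have hV : 0 < finrank D.K0 (Fin R → Q) := by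
    have : Nonempty (Fin R) := ⟨⟨0, hR⟩⟩
    exact Module.finrank_pos
  have hn0 : (0 : ℚ) < n := by rw [hn]; exact_mod_cast hV
  have hmain := C4_abs (k := k) (Q := Q) (D := vecD X R) (d := addD X) (vecD_leib X)
    hW B hB hts2 (c1 := c1) (c0 := c0)
    (fun t ht m w hw => by
      have := hC.tlat.act c1 m t (hts1 t ht) w hw
      rwa [add_comm] at this)
    (fun j m w hw => hC.der j m w hw) (τ := b / n + p / 2)
    (fun U hU => by
      have h := hW.hp (U.restrictScalars D.K0)
      rw [interU_restrict (D := D)] at h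
      have hs := hC.slope U (fun j w hw => hU j w hw) _ _ _ h
      exact slope_aux1 hn0 (Nat.cast_nonneg _) (Nat.cast_nonneg _) hs) Y
  have hfr : (finrank Q (Fin R → Q) : ℚ) = R := by simp
  rw [hfr, add_assoc] at hmain
  rw [hb₁, hn₁]
  have := slope_aux3 hn0 hmain
  rwa [← add_assoc] at this

/-- (C5) in the frozen form, modulo P1. -/
theorem c5Stmt_of (X : DerData D p c0 c1) (hP : P1KStmt D) : C5Stmt X := by
  intro R W n b hR hC Y n₁ b₁ c₁ h₁
  have hspan : Submodule.span D.K0 (D.F c1 : Set Q) = ⊤ := spanK0_F D c1 X.gen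
  have := finite_Q hspan
  obtain ⟨β, γ, hW⟩ := tlat_hilb hspan hP hC.tlat
  obtain ⟨B, hB⟩ := hW.bdd
  obtain ⟨ts, hts1, hts2⟩ := finite_of_span hspan
  obtain ⟨c, hc⟩ := hC.hp
  have htop := hW.hp ⊤
  rw [interU_top, finrank_top] at htop
  obtain ⟨hn, hb, _⟩ := hasHP_unique hc htop
  obtain ⟨hn₁, hb₁, _⟩ := hasHP_unique h₁ (hW.hp Y)
  have hV : 0 < finrank D.K0 (Fin R → Q) := by
    have : Nonempty (Fin R) := ⟨⟨0, hR⟩⟩
    exact Module.finrank_pos
  have hn0 : (0 : ℚ) < n := by rw [hn]; exact_mod_cast hV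
  have hnV : (finrank D.K0 (Fin R → Q) : ℚ) = n := by exact_mod_cast hn.symm
  have hmain := C5_abs (k := k) (Q := Q) (D := vecD X R) (d := addD X)
    hW B hB hts2 (c1 := c1) (c0 := c0)
    (fun t ht m w hw => by
      have := hC.tlat.act c1 m t (hts1 t ht) w hw
      rwa [add_comm] at this)
    (fun j m w hw => hC.der j m w hw) (τ := b / n - p / 2)
    (fun U hU => by
      have h := hW.hp (U.restrictScalars D.K0)
      rw [interU_restrict (D := D)] at h
      have hs := hC.slope U (fun j w hw => hU j w hw) _ _ _ h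
      rw [hnV, ← hb]
      refine slope_aux2 hn0 ?_ (Nat.cast_nonneg _) hs
      rw [← hnV]
      exact_mod_cast Submodule.finrank_le (U.restrictScalars D.K0)) (vecD_leib X) Y
  have hfr : (finrank Q (Fin R → Q) : ℚ) = R := by simp
  rw [hfr, hnV, ← hb, sub_sub (b / n - p / 2 : ℚ)] at hmain
  rw [hb₁, hn₁]
  have := slope_aux4 hn0 hmain
  rwa [← add_assoc] at this

end TSpan

end Crest.Agent.R169.SL
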